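import Vale.Agent.P151.R2.H279.Iso

/-!
# The base case: large sets meet large clusters, slightly below `p_c`
-/

set_option autoImplicit false
set_option linter.unusedSectionVars false

open Finset SimpleGraph Filter Topology

namespace Vale.Agent.P151.R2.H279

open Vale.Agent.P151

variable {V : Type*} [DecidableEq V] {G : SimpleGraph V} [G.LocallyFinite]

lemma missI_nonneg (n : ℕ) (A : Finset V) (S : Finset (Sym2 V)) : 0 ≤ missI n A S := by
  classical
  unfold missI; split_ifs <;> norm_num

lemma missI_le_one (n : ℕ) (A : Finset V) (S : Finset (Sym2 V)) : missI n A S ≤ 1 := by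
  classical
  unfold missI; split_ifs <;> norm_num

lemma missI_mono_set (n : ℕ) {A X : Finset V} (h : X ⊆ A) (S : Finset (Sym2 V)) :
    missI n A S ≤ missI n X S := by
  classical
  unfold missI
  by_cases h1 : ∀ a ∈ A, csz S a < n
  · rw [if_pos h1, if_pos (fun a ha => h1 a (h ha))]
  · rw [if_neg h1]; split_ifs <;> norm_num

lemma missI_insert (n : ℕ) {x : V} {X : Finset V} (S : Finset (Sym2 V)) :
    missI n (insert x X) S = smallI n x S * missI n X S := by
  classical
  unfold missI smallI
  by_cases h1 : csz S x < n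
  · by_cases h2 : ∀ a ∈ X, csz S a < n
    · rw [if_pos, if_pos h1, if_pos h2, one_mul]
      intro a ha
      rw [Finset.mem_insert] at ha
      rcases ha with rfl | ha
      · exact h1
      · exact h2 a ha
    · rw [if_neg, if_neg h2, mul_zero]
      exact fun h => h2 fun a ha => h a (Finset.mem_insert_of_mem ha)
  · rw [if_neg, if_neg h1, zero_mul]
    exact fun h => h1 (h x (Finset.mem_insert_self _ _))

lemma missI_union_bound {L n : ℕ} (hLn : L ≤ n) (X : Finset V) (S : Finset (Sym2 V)) :
    missI n X S ≤ missI L X S + ∑ x ∈ X, (big L x S - big n x S) := by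
  classical
  have hnn : ∀ x ∈ X, 0 ≤ big L x S - big n x S := fun x _ => by
    have := big_anti hLn x S
    linarith
  have hs : 0 ≤ ∑ x ∈ X, (big L x S - big n x S) := Finset.sum_nonneg hnn
  by_cases h1 : ∀ a ∈ X, csz S a < n
  · by_cases h2 : ∀ a ∈ X, csz S a < L
    · have e : missI L X S = 1 := by unfold missI; rw [if_pos h2]
      have := missI_le_one n X S
      linarith
    · push Not at h2
      obtain ⟨a, ha, haL⟩ := h2
      have h3 := Finset.single_le_sum hnn ha
      have h4 : big L a S - big n a S = 1 := by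
        unfold big
        rw [if_pos haL, if_neg (not_le.2 (h1 a ha))]
        norm_num
      have := missI_le_one n X S
      have := missI_nonneg L X S
      linarith
  · have e : missI n X S = 0 := by unfold missI; rw [if_neg h1]
    have := missI_nonneg L X S
    linarith

/-- A large set contains many points far apart. -/
lemma exists_far (hG : G.Connected) {b r : ℕ} (hb : ∀ x, (ballF G x r).card ≤ b) (k : ℕ)
    (A : Finset V) (hA : k * b < A.card + 1) :
    ∃ X ⊆ A, X.card = k ∧ ∀ x ∈ X, ∀ y ∈ X, x ≠ y → r < G.dist x y := by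
  induction k generalizing A with
  | zero => exact ⟨∅, Finset.empty_subset _, by simp, by simp⟩
  | succ k ih =>
    rcases A.eq_empty_or_nonempty with rfl | ⟨x, hx⟩
    · have hb1 : 1 ≤ b := by
        by_contra hcon
        have hne := hG.nonempty
        obtain ⟨o⟩ := hne
        have h1 := hb o
        have h2 : 0 < (ballF G o r).card := Finset.card_pos.2 ⟨o, mem_ballF_self G o r⟩
        omega
      exfalso
      rw [Finset.card_empty] at hA
      have : 1 * 1 ≤ (k + 1) * b := Nat.mul_le_mul (by omega) hb1
      omega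
    · have h1 : A.card ≤ (A \ ballF G x r).card + b := by
        have := Finset.card_le_card_sdiff_add_card (s := A) (t := ballF G x r)
        have := hb x
        omega
      have h2 : k * b < (A \ ballF G x r).card + 1 := by
        have : (k + 1) * b = k * b + b := by ring
        omega
      obtain ⟨X, hXA, hXk, hX⟩ := ih _ h2
      have hxX : x ∉ X := by
        intro h
        have := hXA h
        rw [Finset.mem_sdiff] at this
        exact this.2 (mem_ballF_self G x r)
      refine ⟨insert x X, ?_, by rw [Finset.card_insert_of_notMem hxX, hXk], ?_⟩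
      · exact Finset.insert_subset hx (hXA.trans Finset.sdiff_subset)
      · have hfar : ∀ y ∈ X, r < G.dist x y := by
          intro y hy
          have := (Finset.mem_sdiff.1 (hXA hy)).2
          rw [mem_ballF_iff hG, SimpleGraph.dist_comm] at this
          omega
        intro y hy z hz hyz
        rw [Finset.mem_insert] at hy hz
        rcases hy with rfl | hy <;> rcases hz with rfl | hz
        · exact absurd rfl hyz
        · exact hfar z hz
        · rw [SimpleGraph.dist_comm]; exact hfar y hy
        · exact hX y hy z hz hyz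

/-- Independence for far away points. -/
lemma Ex_missI (hG : G.Connected) (p : ℝ) {L : ℕ} {F : Finset V} (X : Finset V)
    (hX : ∀ x ∈ X, ∀ y ∈ X, x ≠ y → 2 * L < G.dist x y) (hF : ∀ x ∈ X, ballF G x L ⊆ F) :
    Ex p (edgesIn G F) (missI L X) = ∏ x ∈ X, (1 - phiB G L x p) := by
  classical
  induction X using Finset.induction_on with
  | empty =>
    rw [Ex_congr p (G := fun _ => (1 : ℝ))]
    · simp
    · intro S _
      unfold missI; simp
  | insert x X hx ih =>
    rw [Finset.prod_insert hx, ← ih (fun y hy z hz => hX y (Finset.mem_insert_of_mem hy) z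
      (Finset.mem_insert_of_mem hz)) (fun y hy => hF y (Finset.mem_insert_of_mem hy))]
    have h1 : Ex p (edgesIn G F) (smallI L x) = 1 - phiB G L x p := by
      rw [← Ex_big_local hG p (hF x (Finset.mem_insert_self _ _))]
      have e : Ex p (edgesIn G F) (smallI L x) =
          Ex p (edgesIn G F) (fun S => 1 - big L x S) := by
        apply Ex_congr
        intro S _
        have := smallI_add_big L x S
        linarith
      rw [e, Ex_sub]
      simp
    rw [← h1]
    have e : Ex p (edgesIn G F) (missI L (insert x X)) =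
        Ex p (edgesIn G F) (fun S => smallI L x S * missI L X S) := by
      apply Ex_congr
      intro S _
      exact missI_insert L S
    rw [e]
    apply Ex_indep_split p (A := edgesIn G (ballF G x L))
      (edgesIn_mono G (hF x (Finset.mem_insert_self _ _)))
    · intro S hS
      have h2 := big_local hG (n := L) (x := x) (S := S)
        (fun e he => (mem_edgesIn.1 (hS he)).1) (Finset.Subset.refl _)
      have h3 := smallI_add_big L x S
      have h4 := smallI_add_big L x (S ∩ edgesIn G (ballF G x L))
      linarith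
    · intro S hS
      have hSG : ∀ e ∈ S, e ∈ G.edgeSet := fun e he => (mem_edgesIn.1 (hS he)).1
      have hkey : ∀ y ∈ X, csz (S \ edgesIn G (ballF G x L)) y < L ↔ csz S y < L := by
        intro y hy
        have hxy : 2 * L < G.dist x y := hX x (Finset.mem_insert_self _ _) y
          (Finset.mem_insert_of_mem hy) (fun h => hx (h ▸ hy))
        have hd : ∀ e ∈ edgesIn G (ballF G y L), e ∉ edgesIn G (ballF G x L) := by
          intro e he he'
          induction e with
          | _ u v =>
            have h5 := (mk_mem_edgesIn.1 he).2.1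
            have h6 := (mk_mem_edgesIn.1 he').2.1
            rw [mem_ballF_iff hG] at h5 h6
            have h7 := hG.dist_triangle (u := x) (v := u) (w := y)
            rw [SimpleGraph.dist_comm] at h6
            omega
        have h8 : (S \ edgesIn G (ballF G x L)) ∩ edgesIn G (ballF G y L) =
            S ∩ edgesIn G (ballF G y L) := by
          ext e
          rw [Finset.mem_inter, Finset.mem_inter, Finset.mem_sdiff]
          constructor
          · exact fun h => ⟨h.1.1, h.2⟩
          · exact fun h => ⟨⟨h.1, hd e h.2⟩, h.2⟩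
        have h9 := big_local hG (n := L) (x := y) (S := S) hSG (Finset.Subset.refl _)
        have h10 := big_local hG (n := L) (x := y) (S := S \ edgesIn G (ballF G x L))
          (fun e he => hSG e (Finset.mem_sdiff.1 he).1) (Finset.Subset.refl _)
        rw [h8, ← h9] at h10
        have hb : ∀ T : Finset (Sym2 V), csz T y < L ↔ big L y T = 0 := by
          intro T
          unfold big
          split_ifs with h
          · simp [h]
          · simp [not_le.1 h]
        rw [hb, hb, h10]
      unfold missI
      by_cases h11 : ∀ a ∈ X, csz S a < L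
      · rw [if_pos h11, if_pos (fun a ha => (hkey a ha).2 (h11 a ha))]
      · rw [if_neg h11, if_neg (fun h => h11 fun a ha => (hkey a ha).1 (h a ha))]

lemma phiB_aut (hG : G.Connected) (g : G ≃g G) {p : ℝ} (h0 : 0 ≤ p) (h1 : p ≤ 1) (n : ℕ)
    (x : V) : phiB G n (g x) p = phiB G n x p := by
  rw [← phi_eq_phiB hG h0 h1, ← phi_eq_phiB hG h0 h1]
  exact phi_aut G g p n x

open Classical in
/-- **Base case.** -/
theorem base_miss (hG : G.Connected) {R : Finset V}
    (hR : ∀ x : V, ∃ g : G ≃g G, g x ∈ R) (hpc : 0 < pc G) (hpc1 : pc G < 1) {θ : ℝ}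
    (hθ : 0 < θ) (hθn : ∀ n x, θ ≤ phiB G n x (pc G)) {η : ℝ} (hη : 0 < η) :
    ∃ s0 L : ℕ, 1 ≤ s0 ∧ ∀ n : ℕ, L ≤ n → ∃ p : ℝ, pc G / 2 ≤ p ∧ p < pc G ∧ ∀ A F : Finset V,
      s0 ≤ A.card → (∀ a ∈ A, ballF G a n ⊆ F) → Ex p (edgesIn G F) (missI n A) ≤ η := by
  have hne : Nonempty V := hG.nonempty
  obtain ⟨o⟩ := hne
  have hθ1 : θ ≤ 1 := (hθn 0 o).trans (phiB_le_one hpc.le hpc1.le 0 o)
  obtain ⟨k, hk⟩ : ∃ k : ℕ, (1 - θ / 2) ^ k < η / 2 :=
    exists_pow_lt_of_lt_one (by positivity) (by linarith)
  -- a scale after which the tails at `p_c` hardly move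
  have hFF0 : ∀ n, 0 ≤ FF G R n (pc G) := fun n => FF_nonneg hpc.le hpc1.le n
  obtain ⟨L, hL⟩ : ∃ L : ℕ, ∀ n, L ≤ n →
      FF G R L (pc G) - FF G R n (pc G) ≤ η / (4 * (k + 1)) := by
    have hanti : Antitone fun n => FF G R n (pc G) := fun m n h => FF_anti hG hpc.le hpc1.le h
    have hbdd : BddBelow (Set.range fun n => FF G R n (pc G)) := ⟨0, by
      rintro _ ⟨n, rfl⟩; exact hFF0 n⟩
    have hlim := tendsto_atTop_ciInf hanti hbdd
    have hpos : 0 < η / (4 * ((k : ℝ) + 1)) := by positivity
    obtain ⟨L, hL⟩ := (hlim.eventually (gt_mem_nhds (show (⨅ n, FF G R n (pc G)) <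
      (⨅ n, FF G R n (pc G)) + η / (4 * ((k : ℝ) + 1)) by linarith))).exists
    refine ⟨L, fun n _ => ?_⟩
    have := ciInf_le hbdd n
    linarith
  obtain ⟨b, hb1, hb⟩ := ball_bound hG (reps' hR) (2 * L)
  refine ⟨k * b + 1, L, by omega, ?_⟩
  intro n hLn
  -- choice of `p`
  have hcont : ∀ (m : ℕ) (x : V), Continuous fun p => phiB G m x p := by
    intro m x
    rw [continuous_iff_continuousAt]
    intro q
    exact (hasDerivAt_Ex q (edgesIn G (ballF G x m)) (big m x)).continuousAt
  have hev : ∀ᶠ p in 𝓝[<] (pc G), pc G / 2 ≤ p ∧ p < pc G ∧ ∀ x ∈ R,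
      θ / 2 ≤ phiB G L x p ∧ phiB G L x p - phiB G n x p ≤ η / (2 * (k + 1)) := by
    have e1 : ∀ᶠ p in 𝓝[<] (pc G), pc G / 2 ≤ p := by
      apply mem_nhdsWithin_of_mem_nhds
      exact Ici_mem_nhds (by linarith)
    have e2 : ∀ᶠ p in 𝓝[<] (pc G), p < pc G := self_mem_nhdsWithin
    have e3 : ∀ᶠ p in 𝓝[<] (pc G), ∀ x ∈ R,
        θ / 2 ≤ phiB G L x p ∧ phiB G L x p - phiB G n x p ≤ η / (2 * (k + 1)) := by
      rw [Finset.eventually_all]
      intro x hx
      apply mem_nhdsWithin_of_mem_nhds
      have f1 : ∀ᶠ p in 𝓝 (pc G), θ / 2 < phiB G L x p :=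
        (hcont L x).continuousAt.eventually (lt_mem_nhds (by linarith [hθn L x]))
      have f2 : ∀ᶠ p in 𝓝 (pc G), phiB G L x p - phiB G n x p < η / (2 * (k + 1)) := by
        apply ((hcont L x).sub (hcont n x)).continuousAt.eventually (gt_mem_nhds ?_)
        have h1 : phiB G L x (pc G) - phiB G n x (pc G) ≤
            FF G R L (pc G) - FF G R n (pc G) := by
          unfold FF
          rw [← Finset.sum_sub_distrib]
          exact Finset.single_le_sum (f := fun x => phiB G L x (pc G) - phiB G n x (pc G))
            (fun y _ => by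
              have := phiB_anti hG hpc.le hpc1.le hLn y
              linarith) hx
        have h2 := hL n hLn
        have h3 : η / (4 * ((k : ℝ) + 1)) < η / (2 * (k + 1)) := by
          apply div_lt_div_of_pos_left hη (by positivity)
          have : (0 : ℝ) ≤ k := Nat.cast_nonneg k
          linarith
        show phiB G L x (pc G) - phiB G n x (pc G) < η / (2 * (k + 1))
        linarith
      filter_upwards [f1, f2] with p hp1 hp2
      exact ⟨hp1.le, hp2.le⟩
    filter_upwards [e1, e2, e3] with p hp1 hp2 hp3
    exact ⟨hp1, hp2, hp3⟩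
  obtain ⟨p, hp1, hp2, hp3⟩ := hev.exists
  refine ⟨p, hp1, hp2, ?_⟩
  have h0 : 0 ≤ p := by linarith
  have h1 : p ≤ 1 := by linarith
  have hall : ∀ x : V, θ / 2 ≤ phiB G L x p ∧
      phiB G L x p - phiB G n x p ≤ η / (2 * (k + 1)) := by
    intro x
    obtain ⟨g, hg⟩ := hR x
    rw [← phiB_aut hG g h0 h1 L x, ← phiB_aut hG g h0 h1 n x]
    exact hp3 _ hg
  intro A F hA hAF
  obtain ⟨X, hXA, hXk, hX⟩ := exists_far hG hb k A (by omega)
  have hXF : ∀ x ∈ X, ballF G x L ⊆ F := fun x hx =>
    (ballF_mono G x hLn).trans (hAF x (hXA hx))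
  calc Ex p (edgesIn G F) (missI n A)
      ≤ Ex p (edgesIn G F) (fun S => missI L X S + ∑ x ∈ X, (big L x S - big n x S)) := by
        apply Ex_mono h0 h1
        intro S _
        exact (missI_mono_set n hXA S).trans (missI_union_bound hLn X S)
    _ = Ex p (edgesIn G F) (missI L X) + ∑ x ∈ X, (phiB G L x p - phiB G n x p) := by
        rw [Ex_add, Ex_sum]
        congr 1
        apply Finset.sum_congr rfl
        intro x hx
        rw [Ex_sub, Ex_big_local hG p (hXF x hx), Ex_big_local hG p (hAF x (hXA hx))]
    _ ≤ η / 2 + η / 2 := by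
        apply add_le_add
        · rw [Ex_missI hG p X hX hXF]
          calc ∏ x ∈ X, (1 - phiB G L x p) ≤ ∏ x ∈ X, (1 - θ / 2) := by
                apply Finset.prod_le_prod
                · intro x _
                  have := phiB_le_one (G := G) h0 h1 L x
                  linarith
                · intro x _
                  have := (hall x).1
                  linarith
            _ = (1 - θ / 2) ^ k := by rw [Finset.prod_const, hXk]
            _ ≤ η / 2 := hk.le
        · calc ∑ x ∈ X, (phiB G L x p - phiB G n x p) ≤ ∑ x ∈ X, η / (2 * (k + 1)) :=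
                Finset.sum_le_sum fun x _ => (hall x).2
            _ = k * (η / (2 * (k + 1))) := by rw [Finset.sum_const, hXk, nsmul_eq_mul]
            _ ≤ η / 2 := by
                have hk0 : (0 : ℝ) ≤ k := Nat.cast_nonneg k
                rw [mul_div_assoc', div_le_div_iff₀ (by positivity) (by norm_num)]
                nlinarith
    _ = η := by ring

end Vale.Agent.P151.R2.H279
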