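import Vale.Agent.P151.R2.H279.Surgery

/-!
# The expected number of edges separated by a short chain of small clusters
-/

set_option autoImplicit false

open Finset SimpleGraph

namespace Vale.Agent.P151.R2.H279

open Vale.Agent.P151

/-! ### Lists with bounded product -/

/-- Lists of length `k` with entries in `[1, K]`. -/
def LL (K : ℕ) : ℕ → Finset (List ℕ)
  | 0 => {[]}
  | k + 1 => ((Finset.Icc 1 K) ×ˢ LL K k).image (fun q => q.1 :: q.2)

lemma mem_LL {K k : ℕ} {l : List ℕ} : l ∈ LL K k ↔ l.length = k ∧ ∀ s ∈ l, 1 ≤ s ∧ s ≤ K := by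
  induction k generalizing l with
  | zero =>
    simp only [LL, Finset.mem_singleton, List.length_eq_zero_iff]
    constructor
    · rintro rfl; simp
    · exact fun h => h.1
  | succ k ih =>
    simp only [LL, Finset.mem_image, Finset.mem_product, Finset.mem_Icc, Prod.exists]
    constructor
    · rintro ⟨s, l, ⟨hs, hl⟩, rfl⟩
      obtain ⟨h1, h2⟩ := ih.1 hl
      refine ⟨by simp [h1], ?_⟩
      intro t ht
      rw [List.mem_cons] at ht
      rcases ht with rfl | ht
      · exact hs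
      · exact h2 t ht
    · rintro ⟨h1, h2⟩
      cases l with
      | nil => simp at h1
      | cons s l =>
        refine ⟨s, l, ⟨h2 s (by simp), ih.2 ⟨by simpa using h1, fun t ht => h2 t (by simp [ht])⟩⟩,
          rfl⟩

/-- The weight of a list. -/
noncomputable def wl (l : List ℕ) : ℝ := 1 / ((l.prod : ℝ) ^ 2)

lemma wl_nonneg (l : List ℕ) : 0 ≤ wl l := by unfold wl; positivity

lemma sum_inv_sq_le (K : ℕ) : ∑ s ∈ Finset.Icc 1 K, 1 / ((s : ℝ) ^ 2) ≤ 2 := by
  have h := sum_Ioo_inv_sq_le (α := ℝ) 0 (K + 1)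
  have h1 : Finset.Icc 1 K = Finset.Ioo 0 (K + 1) := by
    ext s; simp only [Finset.mem_Icc, Finset.mem_Ioo]; omega
  rw [h1]
  refine le_trans (le_of_eq ?_) (h.trans (by norm_num))
  apply Finset.sum_congr rfl
  intro s _
  rw [one_div]

lemma sum_inv_sq_le' {B : ℕ} (hB : 1 ≤ B) (K : ℕ) :
    ∑ s ∈ Finset.Icc B K, 1 / ((s : ℝ) ^ 2) ≤ 2 / (B : ℝ) := by
  have h := sum_Ioo_inv_sq_le (α := ℝ) (B - 1) (K + 1)
  have h1 : Finset.Icc B K = Finset.Ioo (B - 1) (K + 1) := by
    ext s; simp only [Finset.mem_Icc, Finset.mem_Ioo]; omega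
  rw [h1]
  have h2 : (((B - 1 : ℕ) : ℝ) + 1) = B := by
    rw [Nat.cast_sub hB]; simp
  rw [h2] at h
  refine le_trans (le_of_eq ?_) h
  apply Finset.sum_congr rfl
  intro s _
  rw [one_div]

lemma sum_wl (K k : ℕ) : ∑ l ∈ LL K k, wl l ≤ 2 ^ k := by
  induction k with
  | zero => simp [LL, wl]
  | succ k ih =>
    have hinj : Set.InjOn (fun q : ℕ × List ℕ => q.1 :: q.2)
        ((Finset.Icc 1 K) ×ˢ LL K k : Finset (ℕ × List ℕ)) := by
      rintro ⟨a, b⟩ _ ⟨c, d⟩ _ h
      simp only [List.cons.injEq] at h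
      rw [h.1, h.2]
    simp only [LL]
    rw [Finset.sum_image hinj, Finset.sum_product]
    have e : ∀ s ∈ Finset.Icc 1 K, ∑ l ∈ LL K k, wl (s :: l) =
        1 / ((s : ℝ) ^ 2) * ∑ l ∈ LL K k, wl l := by
      intro s _
      rw [Finset.mul_sum]
      apply Finset.sum_congr rfl
      intro l _
      unfold wl
      rw [List.prod_cons]
      push_cast
      rw [mul_pow, one_div, one_div, one_div, mul_inv]
    rw [Finset.sum_congr rfl e, ← Finset.sum_mul, pow_succ, mul_comm]
    apply mul_le_mul ih (sum_inv_sq_le K)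
    · exact Finset.sum_nonneg fun s _ => by positivity
    · positivity

/-! ### The chain event -/

variable {V : Type*} [DecidableEq V]

/-- Two disjoint arms starting at `x` and `y` with given size lists. -/
def Two (Λ : Finset (Sym2 V)) (Q : ℕ) (l l' : List ℕ) (x y : V) (S : Finset (Sym2 V)) : Prop :=
  ∃ (fs fs' : Finset (Sym2 V)) (U U' : Finset V) (r r' : ℕ),
    Arm Λ S x l fs U r ∧ Arm Λ S y l' fs' U' r' ∧ Disjoint U U' ∧
    Q ^ 8 ≤ r ∧ Q ^ 8 ≤ r' ∧ l.sum < r ∧ l'.sum < r'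

/-- The chain event. -/
def ChainEv (Λ : Finset (Sym2 V)) (h B Q : ℕ) (x y : V) (S : Finset (Sym2 V)) : Prop :=
  ∃ l l' : List ℕ, Two Λ Q l l' x y S ∧ l.length ≤ h ∧ l'.length ≤ h ∧
    B * (l.prod * l'.prod) ≤ Q

lemma Two.symm {Λ : Finset (Sym2 V)} {Q : ℕ} {l l' : List ℕ} {x y : V} {S : Finset (Sym2 V)}
    (h : Two Λ Q l l' x y S) : Two Λ Q l' l y x S := by
  obtain ⟨fs, fs', U, U', r, r', h1, h2, h3, h4, h5, h6, h7⟩ := h
  exact ⟨fs', fs, U', U, r', r, h2, h1, h3.symm, h5, h4, h7, h6⟩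

lemma ChainEv.symm {Λ : Finset (Sym2 V)} {h B Q : ℕ} {x y : V} {S : Finset (Sym2 V)}
    (H : ChainEv Λ h B Q x y S) : ChainEv Λ h B Q y x S := by
  obtain ⟨l, l', h1, h2, h3, h4⟩ := H
  exact ⟨l', l, h1.symm, h3, h2, by rwa [mul_comm l'.prod]⟩

open Classical in
/-- The surgery for given lists. -/
lemma Ex_two {p q : ℝ} (h0 : 0 < p) (h1 : p ≤ 1) (hq : 0 ≤ q) (hpq : 1 - p ≤ q * p)
    (Λ : Finset (Sym2 V)) (Q : ℕ) (l l' : List ℕ) (x y : V) :
    Ex p Λ (fun S => if Two Λ Q l l' x y S then 1 else 0) ≤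
      q ^ (l.length + l'.length) * Ex p Λ (fun S => if Sg (Q ^ 8) S s(x, y) then 1 else 0) := by
  apply Ex_surgery h0 h1 hq hpq
    (fun S' => S'.filter fun g => csz (S'.erase g) x ∉ TT l ∧ csz (S'.erase g) y ∉ TT l')
  intro S hS hT
  obtain ⟨fs, fs', U, U', r, r', a, b, hUU, hr, hr', hs, hs'⟩ := hT
  have hfs'U : ∀ g ∈ fs', ∀ w ∈ g, w ∉ U := fun g hg w hw hU =>
    Finset.disjoint_left.1 hUU hU ((b.edges_mem hg).2.2 w hw)
  have hfsU' : ∀ g ∈ fs, ∀ w ∈ g, w ∉ U' := fun g hg w hw hU =>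
    Finset.disjoint_left.1 hUU ((a.edges_mem hg).2.2 w hw) hU
  have hcomm : S ∪ (fs' ∪ fs) = S ∪ (fs ∪ fs') := by rw [Finset.union_comm fs']
  have hclx : cl (S ∪ (fs ∪ fs')) x = U := a.cl_open hfs'U
  have hcly : cl (S ∪ (fs ∪ fs')) y = U' := by rw [← hcomm]; exact b.cl_open hfsU'
  have hszx : csz (S ∪ (fs ∪ fs')) x = l.sum + r := by unfold csz; rw [hclx, a.card_eq]
  have hszy : csz (S ∪ (fs ∪ fs')) y = l'.sum + r' := by unfold csz; rw [hcly, b.card_eq]
  obtain ⟨a1, a2⟩ := a.csz_erase hfs'U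
  obtain ⟨b1, b2⟩ := b.csz_erase hfsU'
  rw [hcomm] at b1 b2
  have hdis : Disjoint fs fs' := by
    rw [Finset.disjoint_left]
    intro g hg hg'
    induction g with
    | _ u v => exact hfsU' _ hg u (by simp) ((b.edges_mem hg').2.2 u (by simp))
  have hdisS : Disjoint S (fs ∪ fs') := by
    rw [Finset.disjoint_left]
    intro g hg hg'
    rw [Finset.mem_union] at hg'
    rcases hg' with hg' | hg'
    · exact (a.edges_mem hg').2.1 hg
    · exact (b.edges_mem hg').2.1 hg
  refine ⟨S ∪ (fs ∪ fs'), ?_, ?_, ?_, ?_⟩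
  · apply Finset.union_subset hS
    apply Finset.union_subset
    · exact fun g hg => (a.edges_mem hg).1
    · exact fun g hg => (b.edges_mem hg).1
  · rw [Finset.card_union_of_disjoint hdisS, Finset.card_union_of_disjoint hdis, a.card_edges,
      b.card_edges]
  · refine ⟨x, y, rfl, ?_, ?_, ?_⟩
    · intro hc
      have hy : y ∈ cl (S ∪ (fs ∪ fs')) x := mem_cl.2 hc
      rw [hclx] at hy
      exact Finset.disjoint_left.1 hUU hy b.self_mem
    · rw [hszx]; omega
    · rw [hszy]; omega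
  · ext g
    rw [Finset.mem_filter]
    constructor
    · rintro ⟨hg, hx, hy⟩
      rw [Finset.mem_union, Finset.mem_union] at hg
      rcases hg with hg | hg | hg
      · exact hg
      · exact absurd (a1 g hg) hx
      · exact absurd (b1 g hg) hy
    · intro hg
      have hgm : g ∈ S ∪ (fs ∪ fs') := Finset.mem_union_left _ hg
      refine ⟨hgm, fun hx => ?_, fun hy => ?_⟩
      · obtain ⟨g', hg', hgg⟩ := a2 _ hx
        have hle := TT_le hx
        have : g = g' := unique_cut hgm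
          (Finset.mem_union_right _ (Finset.mem_union_left _ hg')) hgg.symm (by omega)
        subst this
        exact (a.edges_mem hg').2.1 hg
      · obtain ⟨g', hg', hgg⟩ := b2 _ hy
        have hle := TT_le hy
        have : g = g' := unique_cut hgm
          (Finset.mem_union_right _ (Finset.mem_union_right _ hg')) hgg.symm (by omega)
        subst this
        exact (b.edges_mem hg').2.1 hg

lemma one_le_prod {l : List ℕ} (h : ∀ s ∈ l, 1 ≤ s) : 1 ≤ l.prod := by
  apply Nat.one_le_iff_ne_zero.2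
  intro h0
  rw [List.prod_eq_zero_iff] at h0
  have := h 0 h0
  omega

lemma le_prod_of_mem {l : List ℕ} (h : ∀ s ∈ l, 1 ≤ s) {s : ℕ} (hs : s ∈ l) : s ≤ l.prod := by
  exact Nat.le_of_dvd (one_le_prod h) (List.dvd_prod hs)

open Classical in
/-- The chain event for a fixed `Q`. -/
lemma Ex_chain {p q : ℝ} (h0 : 0 < p) (h1 : p ≤ 1) (hq : 1 ≤ q) (hpq : 1 - p ≤ q * p)
    (Λ : Finset (Sym2 V)) {h B Q : ℕ} (hB : 1 ≤ B) (x y : V) :
    Ex p Λ (fun S => if ChainEv Λ h B Q x y S then 1 else 0) ≤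
      ((Q : ℝ) / B) ^ 2 * ((h + 1) ^ 2 * (2 * q) ^ (2 * h)) *
        Ex p Λ (fun S => if Sg (Q ^ 8) S s(x, y) then 1 else 0) := by
  have hq0 : 0 ≤ q := by linarith
  have hB' : (0 : ℝ) < B := by exact_mod_cast hB
  set E := Ex p Λ (fun S => if Sg (Q ^ 8) S s(x, y) then (1 : ℝ) else 0) with hE
  have hE0 : 0 ≤ E := Ex_nonneg h0.le h1 fun S _ => by split_ifs <;> norm_num
  -- pointwise bound
  have hpt : ∀ S ⊆ Λ, (if ChainEv Λ h B Q x y S then (1 : ℝ) else 0) ≤
      ((Q : ℝ) / B) ^ 2 * ∑ a ∈ Finset.range (h + 1), ∑ b ∈ Finset.range (h + 1),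
        ∑ l ∈ LL Q a, ∑ l' ∈ LL Q b, wl l * wl l' * (if Two Λ Q l l' x y S then 1 else 0) := by
    intro S _
    have hnn : ∀ l l' : List ℕ, 0 ≤ wl l * wl l' * (if Two Λ Q l l' x y S then (1 : ℝ) else 0) := by
      intro l l'
      apply mul_nonneg (mul_nonneg (wl_nonneg _) (wl_nonneg _))
      split_ifs <;> norm_num
    split_ifs with hc
    · obtain ⟨l, l', hT, hl, hl', hprod⟩ := hc
      have hT' := hT
      obtain ⟨fs, fs', U, U', r, r', a, b, -, -, -, -, -⟩ := hT'
      have hp1 : ∀ s ∈ l, 1 ≤ s := fun s hs => a.one_le hs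
      have hp2 : ∀ s ∈ l', 1 ≤ s := fun s hs => b.one_le hs
      have hl1 := one_le_prod hp1
      have hl2 := one_le_prod hp2
      have hP : l.prod * l'.prod ≤ Q := le_trans (Nat.le_mul_of_pos_left _ (by omega)) hprod
      have hPl : l.prod ≤ Q := le_trans (Nat.le_mul_of_pos_right _ (by omega)) hP
      have hPl' : l'.prod ≤ Q := le_trans (Nat.le_mul_of_pos_left _ (by omega)) hP
      have hm1 : l ∈ LL Q l.length := mem_LL.2 ⟨rfl, fun s hs =>
        ⟨hp1 s hs, (le_prod_of_mem hp1 hs).trans hPl⟩⟩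
      have hm2 : l' ∈ LL Q l'.length := mem_LL.2 ⟨rfl, fun s hs =>
        ⟨hp2 s hs, (le_prod_of_mem hp2 hs).trans hPl'⟩⟩
      have step1 : wl l * wl l' ≤ ∑ a ∈ Finset.range (h + 1), ∑ b ∈ Finset.range (h + 1),
          ∑ l ∈ LL Q a, ∑ l' ∈ LL Q b, wl l * wl l' * (if Two Λ Q l l' x y S then (1:ℝ) else 0) := by
        calc wl l * wl l' = wl l * wl l' * (if Two Λ Q l l' x y S then (1:ℝ) else 0) := by
              rw [if_pos hT, mul_one]
          _ ≤ ∑ l'' ∈ LL Q l'.length, wl l * wl l'' *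
                (if Two Λ Q l l'' x y S then (1:ℝ) else 0) :=
              Finset.single_le_sum (f := fun l'' => wl l * wl l'' *
                (if Two Λ Q l l'' x y S then (1:ℝ) else 0)) (fun l'' _ => hnn l l'') hm2
          _ ≤ ∑ l1 ∈ LL Q l.length, ∑ l'' ∈ LL Q l'.length, wl l1 * wl l'' *
                (if Two Λ Q l1 l'' x y S then (1:ℝ) else 0) :=
              Finset.single_le_sum (f := fun l1 => ∑ l'' ∈ LL Q l'.length, wl l1 * wl l'' *
                (if Two Λ Q l1 l'' x y S then (1:ℝ) else 0))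
                (fun l1 _ => Finset.sum_nonneg fun l'' _ => hnn l1 l'') hm1
          _ ≤ ∑ b ∈ Finset.range (h + 1), ∑ l1 ∈ LL Q l.length, ∑ l'' ∈ LL Q b, wl l1 * wl l'' *
                (if Two Λ Q l1 l'' x y S then (1:ℝ) else 0) :=
              Finset.single_le_sum (f := fun b => ∑ l1 ∈ LL Q l.length, ∑ l'' ∈ LL Q b,
                wl l1 * wl l'' * (if Two Λ Q l1 l'' x y S then (1:ℝ) else 0))
                (fun b _ => Finset.sum_nonneg fun l1 _ => Finset.sum_nonneg fun l'' _ => hnn l1 l'')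
                (Finset.mem_range.2 (by omega))
          _ ≤ ∑ a ∈ Finset.range (h + 1), ∑ b ∈ Finset.range (h + 1), ∑ l1 ∈ LL Q a,
                ∑ l'' ∈ LL Q b, wl l1 * wl l'' * (if Two Λ Q l1 l'' x y S then (1:ℝ) else 0) :=
              Finset.single_le_sum (f := fun a => ∑ b ∈ Finset.range (h + 1), ∑ l1 ∈ LL Q a,
                ∑ l'' ∈ LL Q b, wl l1 * wl l'' * (if Two Λ Q l1 l'' x y S then (1:ℝ) else 0))
                (fun a _ => Finset.sum_nonneg fun b _ => Finset.sum_nonneg fun l1 _ =>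
                  Finset.sum_nonneg fun l'' _ => hnn l1 l'')
                (Finset.mem_range.2 (by omega))
      have step2 : 1 ≤ ((Q : ℝ) / B) ^ 2 * (wl l * wl l') := by
        unfold wl
        have hPr : (0 : ℝ) < (l.prod : ℝ) := by exact_mod_cast hl1
        have hPr' : (0 : ℝ) < (l'.prod : ℝ) := by exact_mod_cast hl2
        have h3 : (B : ℝ) * ((l.prod : ℝ) * l'.prod) ≤ Q := by exact_mod_cast hprod
        have h4 : (1 : ℝ) ≤ (Q : ℝ) / (B * (l.prod * l'.prod)) := by
          rw [le_div_iff₀ (by positivity)]; linarith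
        calc (1 : ℝ) = 1 ^ 2 := by norm_num
          _ ≤ ((Q : ℝ) / (B * (l.prod * l'.prod))) ^ 2 := by gcongr
          _ = ((Q : ℝ) / B) ^ 2 * (1 / (l.prod : ℝ) ^ 2 * (1 / (l'.prod : ℝ) ^ 2)) := by
              field_simp
      exact step2.trans (mul_le_mul_of_nonneg_left step1 (by positivity))
    · apply mul_nonneg (by positivity)
      exact Finset.sum_nonneg fun a _ => Finset.sum_nonneg fun b _ => Finset.sum_nonneg fun l _ =>
        Finset.sum_nonneg fun l' _ => hnn l l'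
  refine (Ex_mono h0.le h1 hpt).trans ?_
  rw [Ex_const_mul, mul_assoc]
  apply mul_le_mul_of_nonneg_left _ (by positivity)
  rw [Ex_sum]
  have hinner : ∀ a ∈ Finset.range (h + 1), Ex p Λ (fun S => ∑ b ∈ Finset.range (h + 1),
      ∑ l ∈ LL Q a, ∑ l' ∈ LL Q b, wl l * wl l' * (if Two Λ Q l l' x y S then (1:ℝ) else 0)) ≤
      (h + 1) * ((2 * q) ^ (2 * h) * E) := by
    intro a ha
    rw [Ex_sum]
    have h2 : ∀ b ∈ Finset.range (h + 1), Ex p Λ (fun S => ∑ l ∈ LL Q a, ∑ l' ∈ LL Q b,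
        wl l * wl l' * (if Two Λ Q l l' x y S then (1:ℝ) else 0)) ≤ (2 * q) ^ (2 * h) * E := by
      intro b hb
      rw [Finset.mem_range] at ha hb
      rw [Ex_sum]
      calc ∑ l ∈ LL Q a, Ex p Λ (fun S => ∑ l' ∈ LL Q b,
            wl l * wl l' * (if Two Λ Q l l' x y S then (1:ℝ) else 0))
          ≤ ∑ l ∈ LL Q a, ∑ l' ∈ LL Q b, wl l * wl l' * (q ^ (2 * h) * E) := by
            apply Finset.sum_le_sum
            intro l hl
            rw [Ex_sum]
            apply Finset.sum_le_sum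
            intro l' hl'
            rw [Ex_const_mul]
            apply mul_le_mul_of_nonneg_left _ (mul_nonneg (wl_nonneg _) (wl_nonneg _))
            refine (Ex_two h0 h1 hq0 hpq Λ Q l l' x y).trans ?_
            apply mul_le_mul_of_nonneg_right _ hE0
            apply pow_le_pow_right₀ hq
            rw [(mem_LL.1 hl).1, (mem_LL.1 hl').1]
            omega
        _ = (∑ l ∈ LL Q a, wl l) * (∑ l' ∈ LL Q b, wl l') * (q ^ (2 * h) * E) := by
            rw [Finset.sum_mul_sum, Finset.sum_mul]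
            apply Finset.sum_congr rfl
            intro l _
            rw [Finset.sum_mul]
        _ ≤ (2 ^ h * 2 ^ h) * (q ^ (2 * h) * E) := by
            apply mul_le_mul_of_nonneg_right _ (by positivity)
            apply mul_le_mul
            · exact (sum_wl Q a).trans (pow_le_pow_right₀ (by norm_num) (by omega))
            · exact (sum_wl Q b).trans (pow_le_pow_right₀ (by norm_num) (by omega))
            · exact Finset.sum_nonneg fun l _ => wl_nonneg l
            · positivity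
        _ = (2 * q) ^ (2 * h) * E := by
            rw [mul_pow, ← pow_add, two_mul h]; ring
    refine (Finset.sum_le_sum h2).trans ?_
    rw [Finset.sum_const, Finset.card_range, nsmul_eq_mul]
    push_cast
    exact le_rfl
  refine (Finset.sum_le_sum hinner).trans ?_
  rw [Finset.sum_const, Finset.card_range, nsmul_eq_mul]
  push_cast
  apply le_of_eq
  ring

/-- The chain event at an edge. -/
def EvE (Λ : Finset (Sym2 V)) (h B : ℕ) (S : Finset (Sym2 V)) (e : Sym2 V) : Prop :=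
  ∃ x y, e = s(x, y) ∧ ∃ Q, B ≤ Q ∧ ChainEv Λ h B Q x y S

open Classical in
/-- The expected number of edges with the chain event. -/
theorem Ex_EvE {p q : ℝ} (h0 : 0 < p) (h1 : p ≤ 1) (hq : 1 ≤ q) (hpq : 1 - p ≤ q * p)
    {Λ : Finset (Sym2 V)} {F : Finset V} (hΛF : ∀ e ∈ Λ, ∀ v ∈ e, v ∈ F) {d h B : ℕ}
    (hd1 : 1 ≤ d) (hd : ∀ v, (Λ.filter (fun e => v ∈ e)).card ≤ d) (hB : 1 ≤ B) :
    ∑ e ∈ Λ, Ex p Λ (fun S => if EvE Λ h B S e then 1 else 0) ≤
      (h + 1) ^ 2 * (2 * q) ^ (2 * h) * (8 * d * F.card / (p * (B : ℝ) ^ 3)) := by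
  have hB' : (0 : ℝ) < B := by exact_mod_cast hB
  have hq0 : 0 ≤ q := by linarith
  -- pointwise union bound over `Q ≤ |F|`
  have hpt : ∀ e ∈ Λ, Ex p Λ (fun S => if EvE Λ h B S e then (1 : ℝ) else 0) ≤
      ∑ Q ∈ Finset.Icc B F.card, ((Q : ℝ) / B) ^ 2 * ((h + 1) ^ 2 * (2 * q) ^ (2 * h)) *
        Ex p Λ (fun S => if Sg (Q ^ 8) S e then 1 else 0) := by
    intro e he
    induction e with
    | _ x y =>
      have hx : x ∈ F := hΛF _ he x (by simp)
      have step : Ex p Λ (fun S => if EvE Λ h B S s(x, y) then (1 : ℝ) else 0) ≤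
          Ex p Λ (fun S => ∑ Q ∈ Finset.Icc B F.card,
            (if ChainEv Λ h B Q x y S then (1 : ℝ) else 0)) := by
        apply Ex_mono h0.le h1
        intro S hS
        split_ifs with hc
        · obtain ⟨x', y', hxy, Q, hQ, hch⟩ := hc
          have hch' : ChainEv Λ h B Q x y S := by
            rw [Sym2.eq_iff] at hxy
            rcases hxy with ⟨rfl, rfl⟩ | ⟨rfl, rfl⟩
            · exact hch
            · exact hch.symm
          have hQF : Q ≤ F.card := by
            obtain ⟨l, l', hT, -, -, -⟩ := hch'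
            obtain ⟨fs, fs', U, U', r, r', a, b, -, hr, -, -, -⟩ := hT
            have hU : U ⊆ F := by
              have h3 := a.cl_open (E := ∅) (by simp)
              rw [← h3]
              apply cl_subset_of hΛF _ hx
              apply Finset.union_subset hS
              apply Finset.union_subset
              · exact fun g hg => (a.edges_mem hg).1
              · simp
            have h4 := Finset.card_le_card hU
            rw [a.card_eq] at h4
            have h5 : Q ≤ Q ^ 8 := Nat.le_self_pow (by norm_num) Q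
            omega
          have h6 := Finset.single_le_sum (s := Finset.Icc B F.card)
            (f := fun Q => if ChainEv Λ h B Q x y S then (1 : ℝ) else 0)
            (fun Q _ => by split_ifs <;> norm_num) (Finset.mem_Icc.2 ⟨hQ, hQF⟩)
          simp only [hch', if_true] at h6
          exact h6
        · exact Finset.sum_nonneg fun Q _ => by split_ifs <;> norm_num
      refine step.trans ?_
      rw [Ex_sum]
      exact Finset.sum_le_sum fun Q _ => Ex_chain h0 h1 hq hpq Λ hB x y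
  refine (Finset.sum_le_sum hpt).trans ?_
  rw [Finset.sum_comm]
  have hQ : ∀ Q ∈ Finset.Icc B F.card, ∑ e ∈ Λ, ((Q : ℝ) / B) ^ 2 *
      ((h + 1) ^ 2 * (2 * q) ^ (2 * h)) * Ex p Λ (fun S => if Sg (Q ^ 8) S e then (1 : ℝ) else 0) ≤
      (h + 1) ^ 2 * (2 * q) ^ (2 * h) * (4 * d * F.card / (p * (B : ℝ) ^ 2)) *
        (1 / (Q : ℝ) ^ 2) := by
    intro Q hQm
    rw [Finset.mem_Icc] at hQm
    have hQ1 : 1 ≤ Q := hB.trans hQm.1
    have hQ' : (0 : ℝ) < Q := by exact_mod_cast hQ1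
    rw [← Finset.mul_sum]
    have h3 := two_ghost h0 h1 hΛF (n := Q ^ 8) (Nat.one_le_pow _ _ hQ1) hd1 hd
    have h4 : Real.sqrt ((Q ^ 8 : ℕ) : ℝ) = (Q : ℝ) ^ 4 := by
      have : (((Q : ℕ) ^ 8 : ℕ) : ℝ) = ((Q : ℝ) ^ 4) ^ 2 := by push_cast; ring
      rw [this, Real.sqrt_sq (by positivity)]
    rw [h4] at h3
    calc ((Q : ℝ) / B) ^ 2 * ((h + 1) ^ 2 * (2 * q) ^ (2 * h)) *
          ∑ e ∈ Λ, Ex p Λ (fun S => if Sg (Q ^ 8) S e then (1 : ℝ) else 0)
        ≤ ((Q : ℝ) / B) ^ 2 * ((h + 1) ^ 2 * (2 * q) ^ (2 * h)) *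
          (4 * d * F.card / (p * (Q : ℝ) ^ 4)) := mul_le_mul_of_nonneg_left h3 (by positivity)
      _ = (h + 1) ^ 2 * (2 * q) ^ (2 * h) * (4 * d * F.card / (p * (B : ℝ) ^ 2)) *
          (1 / (Q : ℝ) ^ 2) := by
          field_simp
  refine (Finset.sum_le_sum hQ).trans ?_
  rw [← Finset.mul_sum]
  calc (h + 1 : ℝ) ^ 2 * (2 * q) ^ (2 * h) * (4 * d * F.card / (p * (B : ℝ) ^ 2)) *
        ∑ Q ∈ Finset.Icc B F.card, 1 / (Q : ℝ) ^ 2
      ≤ (h + 1 : ℝ) ^ 2 * (2 * q) ^ (2 * h) * (4 * d * F.card / (p * (B : ℝ) ^ 2)) * (2 / B) :=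
        mul_le_mul_of_nonneg_left (sum_inv_sq_le' hB _) (by positivity)
    _ = (h + 1) ^ 2 * (2 * q) ^ (2 * h) * (8 * d * F.card / (p * (B : ℝ) ^ 3)) := by
        field_simp
        ring

end Vale.Agent.P151.R2.H279
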