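import Vale.Agent.P151.R2.H279.Defs

/-!
# Exploration of Hamming balls
-/

set_option autoImplicit false
set_option linter.unusedSectionVars false

open Finset SimpleGraph

namespace Vale.Agent.P151.R2.H279

open Vale.Agent.P151

variable {V : Type*} [DecidableEq V]

/-- The closed neighbourhood of `A` in the graph with edge set `Λ`. -/
noncomputable def Nb (Λ : Finset (Sym2 V)) (A : Finset V) : Finset V :=
  A ∪ (TK Λ A).biUnion Sym2.toFinset

lemma mem_Nb {Λ : Finset (Sym2 V)} {A : Finset V} {z : V} :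
    z ∈ Nb Λ A ↔ z ∈ A ∨ ∃ u ∈ A, s(u, z) ∈ Λ := by
  unfold Nb
  rw [Finset.mem_union, Finset.mem_biUnion]
  constructor
  · rintro (h | ⟨e, he, hz⟩)
    · exact Or.inl h
    · rw [mem_TK] at he
      obtain ⟨h1, v, hv, hvA⟩ := he
      rw [Sym2.mem_toFinset] at hz
      by_cases hvz : v = z
      · subst hvz; exact Or.inl hvA
      · right
        refine ⟨v, hvA, ?_⟩
        have : e = s(v, z) := ((Sym2.mem_and_mem_iff hvz).1 ⟨hv, hz⟩)
        rw [← this]; exact h1
  · rintro (h | ⟨u, hu, huz⟩)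
    · exact Or.inl h
    · right
      exact ⟨s(u, z), mem_TK.2 ⟨huz, u, by simp, hu⟩, by simp [Sym2.mem_toFinset]⟩

/-- Hamming balls. -/
noncomputable def HB (Λ S : Finset (Sym2 V)) (x : V) : ℕ → Finset V
  | 0 => cl S x
  | j + 1 => (Nb Λ (HB Λ S x j)).biUnion (cl S)

section
variable {Λ S : Finset (Sym2 V)} {x : V}

lemma mem_HB_succ {j : ℕ} {z : V} :
    z ∈ HB Λ S x (j + 1) ↔ ∃ y ∈ Nb Λ (HB Λ S x j), Cn S y z := by
  simp only [HB, Finset.mem_biUnion, mem_cl]

lemma Nb_subset_HB {j : ℕ} : Nb Λ (HB Λ S x j) ⊆ HB Λ S x (j + 1) := fun y hy =>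
  mem_HB_succ.2 ⟨y, hy, Cn.refl S y⟩

lemma HB_subset_Nb {j : ℕ} : HB Λ S x j ⊆ Nb Λ (HB Λ S x j) := fun _ hy => mem_Nb.2 (Or.inl hy)

lemma HB_mono {i j : ℕ} (h : i ≤ j) : HB Λ S x i ⊆ HB Λ S x j := by
  induction h with
  | refl => exact Finset.Subset.refl _
  | step _ ih => exact ih.trans (HB_subset_Nb.trans Nb_subset_HB)

lemma HB_closed {j : ℕ} {v z : V} (hv : v ∈ HB Λ S x j) (h : Cn S v z) : z ∈ HB Λ S x j := by
  cases j with
  | zero =>
    simp only [HB, mem_cl] at hv ⊢
    exact hv.trans h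
  | succ j =>
    rw [mem_HB_succ] at hv ⊢
    obtain ⟨y, hy, hyv⟩ := hv
    exact ⟨y, hy, hyv.trans h⟩

lemma self_mem_HB (j : ℕ) : x ∈ HB Λ S x j := HB_mono (Nat.zero_le j) (self_mem_cl S x)

/-- If `S'` agrees with `S` on the edges touching a Hamming ball, the clusters inside agree. -/
lemma cl_agree {S' : Finset (Sym2 V)} {A : Finset V} (hS : S ⊆ Λ) (hS' : S' ⊆ Λ)
    (hag : S ∩ TK Λ A = S' ∩ TK Λ A) (hA : ∀ v ∈ A, ∀ z, Cn S v z → z ∈ A) {v : V}
    (hv : v ∈ A) : cl S' v = cl S v := by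
  apply Finset.Subset.antisymm
  · intro z hz
    rw [mem_cl] at hz ⊢
    refine Cn_closed (S := S') (A := {z | Cn S v z}) ?_ (Cn.refl _ v) hz
    intro u hu z huz
    have huA : u ∈ A := hA v hv u hu
    have : s(u, z) ∈ S' ∩ TK Λ A := Finset.mem_inter.2 ⟨huz, mem_TK.2 ⟨hS' huz, u, by simp, huA⟩⟩
    rw [← hag] at this
    exact Cn.trans hu (Cn_of_mem (Finset.mem_inter.1 this).1)
  · intro z hz
    rw [mem_cl] at hz ⊢
    have := Cn_closed (S := S) (A := {z | Cn S' v z ∧ z ∈ A}) ?_ ⟨Cn.refl _ v, hv⟩ hz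
    · exact this.1
    · rintro u ⟨hu, huA⟩ z huz
      have hz' : s(u, z) ∈ S ∩ TK Λ A :=
        Finset.mem_inter.2 ⟨huz, mem_TK.2 ⟨hS huz, u, by simp, huA⟩⟩
      rw [hag] at hz'
      exact ⟨Cn.trans hu (Cn_of_mem (Finset.mem_inter.1 hz').1),
        hA u huA z (Cn_of_mem huz)⟩

lemma HB_agree {S' : Finset (Sym2 V)} {A : Finset V} {j : ℕ} (hS : S ⊆ Λ) (hS' : S' ⊆ Λ)
    (hag : S ∩ TK Λ A = S' ∩ TK Λ A) (hA : HB Λ S x j = A) : HB Λ S' x j = A := by
  have hcl : ∀ v ∈ A, ∀ z, Cn S v z → z ∈ A := by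
    intro v hv z hz
    rw [← hA] at hv ⊢
    exact HB_closed hv hz
  have hi : ∀ i ≤ j, HB Λ S' x i = HB Λ S x i := by
    intro i
    induction i with
    | zero =>
      intro _
      simp only [HB]
      apply cl_agree hS hS' hag hcl
      rw [← hA]; exact self_mem_HB j
    | succ i ih =>
      intro hij
      simp only [HB]
      rw [ih (by omega)]
      apply Finset.biUnion_congr rfl
      intro y hy
      apply cl_agree hS hS' hag hcl
      rw [← hA]
      exact HB_mono hij (Nb_subset_HB hy)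
  rw [hi j le_rfl, hA]

/-- All clusters in the Hamming ball are small. -/
def far (Λ : Finset (Sym2 V)) (M : ℕ) (x : V) (j : ℕ) (S : Finset (Sym2 V)) : Prop :=
  ∀ v ∈ HB Λ S x j, csz S v < M

/-- The Hamming ball is `A` and its clusters are small. -/
def EA (Λ : Finset (Sym2 V)) (M : ℕ) (x : V) (j : ℕ) (A : Finset V) (S : Finset (Sym2 V)) : Prop :=
  HB Λ S x j = A ∧ ∀ v ∈ A, csz S v < M

lemma EA_agree {M : ℕ} {S' : Finset (Sym2 V)} {A : Finset V} {j : ℕ} (hS : S ⊆ Λ) (hS' : S' ⊆ Λ)
    (hag : S ∩ TK Λ A = S' ∩ TK Λ A) (h : EA Λ M x j A S) : EA Λ M x j A S' := by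
  refine ⟨HB_agree hS hS' hag h.1, ?_⟩
  intro v hv
  have hcl : ∀ v ∈ A, ∀ z, Cn S v z → z ∈ A := by
    intro v hv z hz
    rw [← h.1] at hv ⊢
    exact HB_closed hv hz
  have := cl_agree hS hS' hag hcl hv
  unfold csz
  rw [this]
  exact h.2 v hv

lemma EA_iff {M : ℕ} {A : Finset V} {j : ℕ} (hS : S ⊆ Λ) :
    EA Λ M x j A S ↔ EA Λ M x j A (S ∩ TK Λ A) := by
  have hs : S ∩ TK Λ A ⊆ Λ := Finset.inter_subset_left.trans hS
  have hag : S ∩ TK Λ A = (S ∩ TK Λ A) ∩ TK Λ A := by rw [Finset.inter_assoc, Finset.inter_self]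
  exact ⟨EA_agree hS hs hag, EA_agree hs hS hag.symm⟩

/-- Off `A` the configuration sees no cluster of size `M` next to `A`. -/
def off (Λ : Finset (Sym2 V)) (M : ℕ) (A : Finset V) (S : Finset (Sym2 V)) : Prop :=
  ∀ y ∈ Nb Λ A, y ∉ A → csz (S \ TK Λ A) y < M

lemma off_iff {M : ℕ} {A : Finset V} :
    off Λ M A S ↔ off Λ M A (S \ TK Λ A) := by
  unfold off
  rw [Finset.sdiff_idem]

/-- If the ball is `A` and the next ball has only small clusters, then `off` holds. -/
lemma off_of_far {M : ℕ} {A : Finset V} {j : ℕ} (h : HB Λ S x j = A)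
    (hf : far Λ M x (j + 1) S) : off Λ M A S := by
  intro y hy _
  rw [← h] at hy
  exact lt_of_le_of_lt (csz_mono Finset.sdiff_subset y) (hf y (Nb_subset_HB hy))

/-- `off` implies that `A` is not connected to large clusters. -/
lemma miss_of_off {M n : ℕ} {A : Finset V} (hS : S ⊆ Λ) (hoff : off Λ M A S)
    (hn : A.card + (Nb Λ A \ A).card * (M - 1) < n) : ∀ a ∈ A, csz S a < n := by
  intro a ha
  have hsub : cl S a ⊆ A ∪ (Nb Λ A \ A).biUnion (fun y => cl (S \ TK Λ A) y) := by
    intro z hz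
    rw [mem_cl] at hz
    have := Cn_closed (S := S) (A := {z | z ∈ A ∨ ∃ y ∈ Nb Λ A \ A, Cn (S \ TK Λ A) y z}) ?_
      (Or.inl ha) hz
    · rw [Finset.mem_union, Finset.mem_biUnion]
      rcases this with h | ⟨y, hy, hyz⟩
      · exact Or.inl h
      · exact Or.inr ⟨y, hy, mem_cl.2 hyz⟩
    · have hkey : ∀ u ∈ A, ∀ z, s(u, z) ∈ S →
          z ∈ {z | z ∈ A ∨ ∃ y ∈ Nb Λ A \ A, Cn (S \ TK Λ A) y z} := by
        intro u hu z huz
        by_cases hzA : z ∈ A
        · exact Or.inl hzA
        · exact Or.inr ⟨z, Finset.mem_sdiff.2 ⟨mem_Nb.2 (Or.inr ⟨u, hu, hS huz⟩), hzA⟩,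
            Cn.refl _ z⟩
      rintro u (hu | ⟨y, hy, hyu⟩) z huz
      · exact hkey u hu z huz
      · by_cases hT : s(u, z) ∈ TK Λ A
        · rw [mem_TK] at hT
          obtain ⟨-, w, hw, hwA⟩ := hT
          rw [Sym2.mem_iff] at hw
          rcases hw with rfl | rfl
          · exact hkey _ hwA z huz
          · exact Or.inl hwA
        · exact Or.inr ⟨y, hy, hyu.trans (Cn_of_mem (Finset.mem_sdiff.2 ⟨huz, hT⟩))⟩
  refine lt_of_le_of_lt ?_ hn
  unfold csz
  refine (Finset.card_le_card hsub).trans ((Finset.card_union_le _ _).trans ?_)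
  apply Nat.add_le_add_left
  apply Finset.card_biUnion_le_card_mul
  intro y hy
  rw [Finset.mem_sdiff] at hy
  have := hoff y hy.1 hy.2
  unfold csz at this
  omega

lemma mem_Lv_of_Cn {M j : ℕ} {v v' : V} (h : Cn S v v') (hv : v' ∈ Lv Λ M S j) :
    v ∈ Lv Λ M S j := by
  induction j with
  | zero =>
    simp only [Lv] at hv ⊢
    rw [Set.mem_ofPred_eq] at hv ⊢
    rwa [csz_eq h]
  | succ j ih =>
    rcases hv with hv | ⟨u, hu, w, hw, hL⟩
    · exact Or.inl (ih hv)
    · exact Or.inr ⟨u, by rw [cl_eq h]; exact hu, w, hw, hL⟩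

lemma Lv_mono {M i j : ℕ} (h : i ≤ j) : Lv Λ M S i ⊆ Lv Λ M S j := by
  induction h with
  | refl => exact fun _ h => h
  | step _ ih => exact fun v hv => Or.inl (ih hv)

/-- If the Hamming ball of radius `j` meets level `i`, then `x` is in level `i + j`. -/
lemma Lv_of_HB {M i j : ℕ} {y : V} (hy : y ∈ HB Λ S x j) (hL : y ∈ Lv Λ M S i) :
    x ∈ Lv Λ M S (i + j) := by
  induction j generalizing i y with
  | zero =>
    simp only [HB, mem_cl] at hy
    exact mem_Lv_of_Cn hy hL
  | succ j ih =>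
    rw [mem_HB_succ] at hy
    obtain ⟨z, hz, hzy⟩ := hy
    have hzL : z ∈ Lv Λ M S i := mem_Lv_of_Cn hzy hL
    rw [mem_Nb] at hz
    rcases hz with hz | ⟨u, hu, huz⟩
    · exact Lv_mono (by omega) (ih hz hzL)
    · have huL : u ∈ Lv Λ M S (i + 1) := Or.inr ⟨u, self_mem_cl S u, z, huz, hzL⟩
      have := ih hu huL
      rwa [show i + (j + 1) = i + 1 + j by ring]

lemma far_of_not_Lv {M j : ℕ} (h : x ∉ Lv Λ M S j) : far Λ M x j S := by
  intro v hv
  by_contra hcon
  apply h
  have := Lv_of_HB (i := 0) hv (not_lt.1 hcon)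
  rwa [zero_add] at this

end

/-! ### Sizes of Hamming balls -/

section Graph
variable {G : SimpleGraph V} [G.LocallyFinite]

lemma card_Nb_sdiff {F : Finset V} {d : ℕ} (hd : ∀ v, G.degree v ≤ d) (A : Finset V) :
    (Nb (edgesIn G F) A \ A).card ≤ A.card * d := by
  have hsub : Nb (edgesIn G F) A \ A ⊆ A.biUnion fun u => G.neighborFinset u := by
    intro z hz
    rw [Finset.mem_sdiff, mem_Nb] at hz
    rcases hz with ⟨h | ⟨u, hu, huz⟩, hzA⟩
    · exact absurd h hzA
    · exact Finset.mem_biUnion.2 ⟨u, hu, by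
        rw [SimpleGraph.mem_neighborFinset]; exact (mk_mem_edgesIn.1 huz).1⟩
  exact (Finset.card_le_card hsub).trans
    (Finset.card_biUnion_le_card_mul _ _ _ fun u _ => hd u)

lemma card_Nb {F : Finset V} {d : ℕ} (hd : ∀ v, G.degree v ≤ d) (A : Finset V) :
    (Nb (edgesIn G F) A).card ≤ (1 + d) * A.card := by
  have h1 : Nb (edgesIn G F) A ⊆ A ∪ (Nb (edgesIn G F) A \ A) := by
    intro z hz
    by_cases h : z ∈ A
    · exact Finset.mem_union_left _ h
    · exact Finset.mem_union_right _ (Finset.mem_sdiff.2 ⟨hz, h⟩)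
  have h2 := (Finset.card_le_card h1).trans (Finset.card_union_le _ _)
  have h3 := card_Nb_sdiff (F := F) hd A
  nlinarith

lemma card_HB {F : Finset V} {d M : ℕ} (hd : ∀ v, G.degree v ≤ d) {S : Finset (Sym2 V)}
    {x : V} {j : ℕ} (hf : far (edgesIn G F) M x j S) :
    (HB (edgesIn G F) S x j).card ≤ ((1 + d) * M) ^ (j + 1) := by
  induction j with
  | zero =>
    have h1 : (HB (edgesIn G F) S x 0).card < M := hf x (self_mem_HB 0)
    have h2 : M ≤ (1 + d) * M := Nat.le_mul_of_pos_left _ (by omega)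
    rw [zero_add, pow_one]
    omega
  | succ j ih =>
    have hf' : far (edgesIn G F) M x j S := fun v hv => hf v (HB_mono (Nat.le_succ j) hv)
    have h1 := ih hf'
    simp only [HB]
    calc ((Nb (edgesIn G F) (HB (edgesIn G F) S x j)).biUnion (cl S)).card
        ≤ (Nb (edgesIn G F) (HB (edgesIn G F) S x j)).card * M := by
          apply Finset.card_biUnion_le_card_mul
          intro y hy
          exact (hf y (Nb_subset_HB hy)).le
      _ ≤ ((1 + d) * ((1 + d) * M) ^ (j + 1)) * M := by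
          apply Nat.mul_le_mul_right
          exact (card_Nb hd _).trans (Nat.mul_le_mul_left _ h1)
      _ = ((1 + d) * M) ^ (j + 1 + 1) := by ring

lemma dist_HB (hG : G.Connected) {F : Finset V} {M : ℕ} {S : Finset (Sym2 V)}
    (hS : S ⊆ edgesIn G F) {x : V} {j : ℕ} (hf : far (edgesIn G F) M x j S) {a : V}
    (ha : a ∈ HB (edgesIn G F) S x j) : G.dist x a ≤ (j + 1) * M := by
  have hSG : ∀ e ∈ S, e ∈ G.edgeSet := fun e he => (mem_edgesIn.1 (hS he)).1
  induction j generalizing a with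
  | zero =>
    have h1 := dist_lt_csz hSG (mem_cl.1 (show a ∈ cl S x from ha))
    have h2 : csz S x < M := hf x (self_mem_HB 0)
    omega
  | succ j ih =>
    have hf' : far (edgesIn G F) M x j S := fun v hv => hf v (HB_mono (Nat.le_succ j) hv)
    rw [mem_HB_succ] at ha
    obtain ⟨y, hy, hya⟩ := ha
    have h1 := dist_lt_csz hSG hya
    have h2 : csz S y < M := hf y (Nb_subset_HB hy)
    have h3 : G.dist x y ≤ (j + 1) * M + 1 := by
      rw [mem_Nb] at hy
      rcases hy with hy | ⟨u, hu, huy⟩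
      · have := ih hf' hy; omega
      · have h4 := ih hf' hu
        have h5 := hG.dist_triangle (u := x) (v := u) (w := y)
        have h6 : G.dist u y = 1 := SimpleGraph.dist_eq_one_iff_adj.2 (mk_mem_edgesIn.1 huy).1
        omega
    have h4 := hG.dist_triangle (u := x) (v := y) (w := a)
    have h5 : (j + 1 + 1) * M = (j + 1) * M + M := by ring
    omega

/-- In an infinite connected graph a ball of radius `j` has more than `j` vertices. -/
lemma lt_card_ballF [Infinite V] (hG : G.Connected) (x : V) (j : ℕ) :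
    j < (ballF G x j).card := by
  have hex : ∀ i : ℕ, ∃ y, G.dist x y = i := by
    intro i
    obtain ⟨z, hz⟩ := Infinite.exists_notMem_finset (ballF G x i)
    rw [mem_ballF_iff hG, SimpleGraph.dist_comm] at hz
    push Not at hz
    obtain ⟨y, h1, h2⟩ := exists_mid hG (x := x) (z := z) (a := i) (b := G.dist x z - i)
      (by omega)
    refine ⟨y, ?_⟩
    have := hG.dist_triangle (u := x) (v := y) (w := z)
    omega
  choose f hf using hex
  have hinj : Set.InjOn f (Finset.range (j + 1) : Finset ℕ) := by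
    intro a _ b _ hab
    rw [← hf a, hab, hf b]
  have := Finset.card_le_card_of_injOn (s := Finset.range (j + 1)) (t := ballF G x j) f (by
    intro i hi
    rw [Finset.mem_coe, Finset.mem_range] at hi
    rw [Finset.mem_coe, mem_ballF_iff hG, SimpleGraph.dist_comm, hf]
    omega) hinj
  rw [Finset.card_range] at this
  omega

lemma ball_subset_HB (hG : G.Connected) {F : Finset V} {S : Finset (Sym2 V)} {x : V} {j : ℕ}
    (hx : ballF G x j ⊆ F) : ballF G x j ⊆ HB (edgesIn G F) S x j := by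
  induction j with
  | zero =>
    intro y hy
    rw [ballF_zero, Finset.mem_singleton] at hy
    subst hy
    exact self_mem_HB 0
  | succ j ih =>
    have hx' : ballF G x j ⊆ F := (ballF_mono G x (Nat.le_succ j)).trans hx
    have h1 := ih hx'
    intro y hy
    rw [mem_ballF_iff hG, SimpleGraph.dist_comm] at hy
    obtain ⟨u, hu1, hu2⟩ := exists_mid hG (x := x) (z := y) (a := j) (b := 1) hy
    have hu : u ∈ ballF G x j := by rw [mem_ballF_iff hG, SimpleGraph.dist_comm]; exact hu1
    apply Nb_subset_HB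
    rw [mem_Nb]
    by_cases huy : u = y
    · subst huy; exact Or.inl (h1 hu)
    · right
      refine ⟨u, h1 hu, mk_mem_edgesIn.2 ⟨?_, hx' hu, hx ?_⟩⟩
      · rw [← SimpleGraph.dist_eq_one_iff_adj]
        have := hG.pos_dist_of_ne huy
        omega
      · rw [mem_ballF_iff hG, SimpleGraph.dist_comm]; exact hy

lemma HB_subset {F : Finset V} {S : Finset (Sym2 V)} (hS : S ⊆ edgesIn G F) {x : V}
    (hx : x ∈ F) (j : ℕ) : HB (edgesIn G F) S x j ⊆ F := by
  have hΛF : ∀ e ∈ edgesIn G F, ∀ v ∈ e, v ∈ F := fun e he => (mem_edgesIn.1 he).2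
  induction j with
  | zero => exact cl_subset_of hΛF hS hx
  | succ j ih =>
    intro z hz
    rw [mem_HB_succ] at hz
    obtain ⟨y, hy, hyz⟩ := hz
    have hyF : y ∈ F := by
      rw [mem_Nb] at hy
      rcases hy with hy | ⟨u, _, huy⟩
      · exact ih hy
      · exact (mk_mem_edgesIn.1 huy).2.2
    exact cl_subset_of hΛF hS hyF (mem_cl.2 hyz)

open Classical in
/-- One step of the exploration. -/
lemma explore_step [Infinite V] (hG : G.Connected) {p : ℝ}
    (h0 : 0 ≤ p) (h1 : p ≤ 1) {F : Finset V} {d n M s0 j : ℕ} {η : ℝ}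
    (hd1 : 1 ≤ d) (hd : ∀ v, G.degree v ≤ d)
    (hmiss : ∀ A : Finset V, s0 ≤ A.card → (∀ a ∈ A, ballF G a n ⊆ F) →
      Ex p (edgesIn G F) (missI n A) ≤ η)
    (hM : 1 ≤ M) (hn : ((1 + d) * M) ^ (j + 2) ≤ n) {x : V} (hx : ballF G x (2 * n) ⊆ F)
    (hs : s0 ≤ j + 1) :
    Ex p (edgesIn G F) (fun S => if far (edgesIn G F) M x (j + 1) S then 1 else 0) ≤
      η * Ex p (edgesIn G F) (fun S => if far (edgesIn G F) M x j S then 1 else 0) := by
  set Λ := edgesIn G F with hΛ
  have hxF : x ∈ F := hx (mem_ballF_self G x _)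
  have hbig : 2 ≤ (1 + d) * M := by nlinarith
  have hjn : j + 2 ≤ n := by
    refine le_trans ?_ hn
    have : j + 2 < 2 ^ (j + 2) := Nat.lt_two_pow_self
    exact this.le.trans (Nat.pow_le_pow_left hbig _)
  -- decomposition of `far j`
  have hdec : ∀ S ⊆ Λ, (if far Λ M x j S then (1 : ℝ) else 0) =
      ∑ A ∈ F.powerset, if EA Λ M x j A S then (1 : ℝ) else 0 := by
    intro S hS
    have hsub : HB Λ S x j ∈ F.powerset := Finset.mem_powerset.2 (HB_subset hS hxF j)
    rw [Finset.sum_eq_single_of_mem (HB Λ S x j) hsub]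
    · by_cases h : far Λ M x j S
      · rw [if_pos h, if_pos ⟨rfl, h⟩]
      · rw [if_neg h, if_neg (fun h' => h h'.2)]
    · intro A _ hA
      rw [if_neg (fun h => hA h.1.symm)]
  -- each term
  have hterm : ∀ A ∈ F.powerset, Ex p Λ (fun S => (if EA Λ M x j A S then (1 : ℝ) else 0) *
      (if off Λ M A S then 1 else 0)) ≤
      η * Ex p Λ (fun S => if EA Λ M x j A S then (1 : ℝ) else 0) := by
    intro A _
    by_cases hne : ∃ S ⊆ Λ, EA Λ M x j A S
    · obtain ⟨S₀, hS₀, hE⟩ := hne
      have hfar : far Λ M x j S₀ := by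
        intro v hv
        rw [hE.1] at hv
        exact hE.2 v hv
      have hcard : A.card ≤ ((1 + d) * M) ^ (j + 1) := by
        rw [← hE.1]; exact card_HB hd hfar
      have hcard2 : s0 ≤ A.card := by
        have h3 : ballF G x j ⊆ F := (ballF_mono G x (by omega)).trans hx
        have h4 := Finset.card_le_card (ball_subset_HB (S := S₀) hG h3)
        have h5 := lt_card_ballF hG x j
        rw [← hΛ, hE.1] at h4
        omega
      have hball : ∀ a ∈ A, ballF G a n ⊆ F := by
        intro a ha z hz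
        apply hx
        rw [mem_ballF_iff hG] at hz ⊢
        have h3 : G.dist x a ≤ (j + 1) * M := by
          rw [← hE.1] at ha; exact dist_HB hG hS₀ hfar ha
        have h4 := hG.dist_triangle (u := z) (v := a) (w := x)
        have h5 : G.dist a x = G.dist x a := SimpleGraph.dist_comm
        have h6 : (j + 1) * M ≤ n := by
          refine le_trans ?_ hn
          have h7 : j + 1 < 2 ^ (j + 1) := Nat.lt_two_pow_self
          calc (j + 1) * M ≤ 2 ^ (j + 1) * ((1 + d) * M) :=
                Nat.mul_le_mul h7.le (Nat.le_mul_of_pos_left _ (by omega))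
            _ ≤ ((1 + d) * M) ^ (j + 1) * ((1 + d) * M) :=
                Nat.mul_le_mul_right _ (Nat.pow_le_pow_left hbig _)
            _ = ((1 + d) * M) ^ (j + 2) := by ring
        omega
      have hA0 : 0 < A.card := by
        rw [← hE.1]; exact Finset.card_pos.2 ⟨x, self_mem_HB j⟩
      have hoff : Ex p Λ (fun S => if off Λ M A S then (1 : ℝ) else 0) ≤ η := by
        refine le_trans ?_ (hmiss A hcard2 hball)
        apply Ex_mono h0 h1
        intro S hS
        unfold missI
        by_cases ho : off Λ M A S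
        · rw [if_pos ho, if_pos (miss_of_off hS ho ?_)]
          have h3 := card_Nb_sdiff (F := F) hd A
          rw [← hΛ] at h3
          obtain ⟨m, rfl⟩ := Nat.exists_eq_add_of_le hM
          have h4 : (Nb Λ A \ A).card * (1 + m - 1) ≤ A.card * d * m := by
            rw [Nat.add_sub_cancel_left]
            exact Nat.mul_le_mul_right _ h3
          calc A.card + (Nb Λ A \ A).card * (1 + m - 1) ≤ A.card + A.card * d * m := by omega
            _ < (1 + d) * (1 + m) * A.card := by nlinarith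
            _ ≤ (1 + d) * (1 + m) * ((1 + d) * (1 + m)) ^ (j + 1) := Nat.mul_le_mul_left _ hcard
            _ = ((1 + d) * (1 + m)) ^ (j + 2) := by ring
            _ ≤ n := hn
        · rw [if_neg ho]
          split_ifs <;> norm_num
      have hind : Ex p Λ (fun S => (if EA Λ M x j A S then (1 : ℝ) else 0) *
          (if off Λ M A S then 1 else 0)) =
          Ex p Λ (fun S => if EA Λ M x j A S then (1 : ℝ) else 0) *
          Ex p Λ (fun S => if off Λ M A S then (1 : ℝ) else 0) := by
        apply Ex_indep_split p (TK_subset Λ A)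
        · intro S hS
          by_cases h : EA Λ M x j A S
          · rw [if_pos h, if_pos ((EA_iff hS).1 h)]
          · rw [if_neg h, if_neg (fun h' => h ((EA_iff hS).2 h'))]
        · intro S hS
          by_cases h : off Λ M A S
          · rw [if_pos h, if_pos (off_iff.1 h)]
          · rw [if_neg h, if_neg (fun h' => h (off_iff.2 h'))]
      rw [hind, mul_comm]
      apply mul_le_mul_of_nonneg_right hoff
      apply Ex_nonneg h0 h1
      intro S _
      split_ifs <;> norm_num
    · push Not at hne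
      have e1 : Ex p Λ (fun S => (if EA Λ M x j A S then (1 : ℝ) else 0) *
          (if off Λ M A S then 1 else 0)) = 0 := by
        rw [Ex_congr p (G := fun _ => (0 : ℝ))]
        · simp
        · intro S hS
          rw [if_neg (hne S hS), zero_mul]
      have e2 : Ex p Λ (fun S => if EA Λ M x j A S then (1 : ℝ) else 0) = 0 := by
        rw [Ex_congr p (G := fun _ => (0 : ℝ))]
        · simp
        · intro S hS
          rw [if_neg (hne S hS)]
      rw [e1, e2, mul_zero]
  calc Ex p Λ (fun S => if far Λ M x (j + 1) S then (1 : ℝ) else 0)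
      ≤ Ex p Λ (fun S => ∑ A ∈ F.powerset, (if EA Λ M x j A S then (1 : ℝ) else 0) *
          (if off Λ M A S then 1 else 0)) := by
        apply Ex_mono h0 h1
        intro S hS
        by_cases h : far Λ M x (j + 1) S
        · rw [if_pos h]
          have hfj : far Λ M x j S := fun v hv => h v (HB_mono (Nat.le_succ j) hv)
          have h3 := hdec S hS
          rw [if_pos hfj] at h3
          refine h3.le.trans (Finset.sum_le_sum ?_)
          intro A _
          by_cases hE : EA Λ M x j A S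
          · rw [if_pos hE, if_pos (off_of_far hE.1 h)]; norm_num
          · rw [if_neg hE]; norm_num
        · rw [if_neg h]
          apply Finset.sum_nonneg
          intro A _
          split_ifs <;> norm_num
    _ = ∑ A ∈ F.powerset, Ex p Λ (fun S => (if EA Λ M x j A S then (1 : ℝ) else 0) *
          (if off Λ M A S then 1 else 0)) := Ex_sum p Λ _ _
    _ ≤ ∑ A ∈ F.powerset, η * Ex p Λ (fun S => if EA Λ M x j A S then (1 : ℝ) else 0) :=
        Finset.sum_le_sum hterm
    _ = η * Ex p Λ (fun S => if far Λ M x j S then (1 : ℝ) else 0) := by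
        rw [← Finset.mul_sum, ← Ex_sum]
        congr 1
        exact Ex_congr p fun S hS => (hdec S hS).symm

open Classical in
/-- The probability of being far from the large clusters. -/
theorem explore [Infinite V] (hG : G.Connected) {p : ℝ}
    (h0 : 0 ≤ p) (h1 : p ≤ 1) {F : Finset V} {d n M s0 h : ℕ} {η : ℝ} (hη : 0 ≤ η)
    (hd1 : 1 ≤ d) (hd : ∀ v, G.degree v ≤ d)
    (hmiss : ∀ A : Finset V, s0 ≤ A.card → (∀ a ∈ A, ballF G a n ⊆ F) →
      Ex p (edgesIn G F) (missI n A) ≤ η)
    (hM : 1 ≤ M) (hn : ((1 + d) * M) ^ (h + 2) ≤ n) {x : V} (hx : ballF G x (2 * n) ⊆ F)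
    (hs : s0 ≤ h) :
    Ex p (edgesIn G F) (fun S => if x ∈ Lv (edgesIn G F) M S h then 0 else 1) ≤
      η ^ (h - s0) := by
  have key : ∀ k, s0 + k ≤ h → Ex p (edgesIn G F)
      (fun S => if far (edgesIn G F) M x (s0 + k) S then (1 : ℝ) else 0) ≤ η ^ k := by
    intro k
    induction k with
    | zero =>
      intro _
      rw [pow_zero]
      apply Ex_le_const h0 h1
      intro S _
      split_ifs <;> norm_num
    | succ k ih =>
      intro hk
      have hn' : ((1 + d) * M) ^ (s0 + k + 2) ≤ n :=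
        le_trans (Nat.pow_le_pow_right (by nlinarith) (by omega)) hn
      have h3 := explore_step hG h0 h1 hd1 hd hmiss hM hn' hx (by omega)
      rw [← add_assoc]
      refine h3.trans ?_
      rw [pow_succ, mul_comm (η ^ k)]
      exact mul_le_mul_of_nonneg_left (ih (by omega)) hη
  refine le_trans ?_ (key (h - s0) (by omega))
  rw [show s0 + (h - s0) = h by omega]
  apply Ex_mono h0 h1
  intro S _
  by_cases hL : x ∈ Lv (edgesIn G F) M S h
  · rw [if_pos hL]
    split_ifs <;> norm_num
  · rw [if_neg hL, if_pos (far_of_not_Lv hL)]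

end Graph

end Vale.Agent.P151.R2.H279
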