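import Vale.Agent.P151.R2.H279.Bound

/-!
# Cells: labels of the vertices near large clusters, and the pigeonhole on sizes
-/

set_option autoImplicit false

open Finset SimpleGraph

namespace Vale.Agent.P151.R2.H279

open Vale.Agent.P151

variable {V : Type*} [DecidableEq V]

open Classical in
/-- The label of a vertex: the large cluster to which it is assigned within `j` steps. -/
noncomputable def lab (Λ : Finset (Sym2 V)) (M : ℕ) (S : Finset (Sym2 V)) :
    ℕ → V → Option (Finset V)
  | 0, v => if M ≤ csz S v then some (cl S v) else none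
  | j + 1, v => if (lab Λ M S j v).isSome then lab Λ M S j v else
      if ∃ K, ∃ u ∈ cl S v, ∃ w, s(u, w) ∈ Λ ∧ lab Λ M S j w = some K then
        some (Classical.epsilon fun K => ∃ u ∈ cl S v, ∃ w, s(u, w) ∈ Λ ∧
          lab Λ M S j w = some K)
      else none

set_option linter.unusedSectionVars false

section
variable {Λ S : Finset (Sym2 V)} {M : ℕ}

open Classical in
lemma lab_eq (j : ℕ) (v : V) : lab Λ M S (j + 1) v =
    if (lab Λ M S j v).isSome then lab Λ M S j v else
      if ∃ K, ∃ u ∈ cl S v, ∃ w, s(u, w) ∈ Λ ∧ lab Λ M S j w = some K then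
        some (Classical.epsilon fun K => ∃ u ∈ cl S v, ∃ w, s(u, w) ∈ Λ ∧
          lab Λ M S j w = some K)
      else none := rfl

lemma lab_const {j : ℕ} {v v' : V} (h : Cn S v v') : lab Λ M S j v = lab Λ M S j v' := by
  induction j with
  | zero => simp only [lab]; rw [csz_eq h, cl_eq h]
  | succ j ih => simp only [lab]; rw [ih, cl_eq h]

lemma lab_succ {j : ℕ} {v : V} {K : Finset V} (h : lab Λ M S j v = some K) :
    lab Λ M S (j + 1) v = some K := by
  simp [lab, h]

lemma lab_mono {j j' : ℕ} (hj : j ≤ j') {v : V} {K : Finset V} (h : lab Λ M S j v = some K) :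
    lab Λ M S j' v = some K := by
  induction hj with
  | refl => exact h
  | step _ ih => exact lab_succ ih

lemma lab_zero {v : V} (h : M ≤ csz S v) (j : ℕ) : lab Λ M S j v = some (cl S v) := by
  apply lab_mono (Nat.zero_le j)
  simp [lab, h]

lemma lab_isSome {j : ℕ} {v : V} : (lab Λ M S j v).isSome ↔ v ∈ Lv Λ M S j := by
  induction j generalizing v with
  | zero =>
    simp only [lab, Lv, Set.mem_setOf_eq]
    split_ifs with h <;> simp [h]
  | succ j ih =>
    have hLv : v ∈ Lv Λ M S (j + 1) ↔ (v ∈ Lv Λ M S j ∨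
      ∃ u ∈ cl S v, ∃ w, s(u, w) ∈ Λ ∧ w ∈ Lv Λ M S j) := Iff.rfl
    rw [hLv, lab_eq]
    by_cases h1 : (lab Λ M S j v).isSome
    · rw [if_pos h1]
      exact ⟨fun _ => Or.inl (ih.1 h1), fun _ => h1⟩
    · rw [if_neg h1]
      have h1' : v ∉ Lv Λ M S j := fun h => h1 (ih.2 h)
      by_cases h2 : ∃ K, ∃ u ∈ cl S v, ∃ w, s(u, w) ∈ Λ ∧ lab Λ M S j w = some K
      · rw [if_pos h2]
        obtain ⟨K, u, hu, w, hw, hK⟩ := h2
        exact ⟨fun _ => Or.inr ⟨u, hu, w, hw, ih.1 (by simp [hK])⟩, fun _ => by simp⟩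
      · rw [if_neg h2]
        simp only [Option.isSome_none, Bool.false_eq_true, false_iff]
        rintro (h | ⟨u, hu, w, hw, hL⟩)
        · exact h1' h
        · obtain ⟨K, hK⟩ := Option.isSome_iff_exists.1 (ih.2 hL)
          exact h2 ⟨K, u, hu, w, hw, hK⟩

/-- A labelled vertex is joined to its large cluster by an arm inside its cell. -/
lemma lab_arm {j : ℕ} {x : V} {K : Finset V} (h : lab Λ M S j x = some K) :
    ∃ (L : List ℕ) (fs : Finset (Sym2 V)) (U : Finset V) (r : ℕ), Arm Λ S x L fs U r ∧ M ≤ r ∧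
      L.length ≤ j ∧ ∀ v ∈ U, lab Λ M S j v = some K := by
  induction j generalizing x K with
  | zero =>
    simp only [lab] at h
    split_ifs at h with h1
    refine ⟨[], ∅, _, _, Arm.nil x, h1, by simp, ?_⟩
    intro v hv
    rw [← lab_const (mem_cl.1 hv)]
    simp only [lab, h1, if_true]
    exact h
  | succ j ih =>
    by_cases h1 : (lab Λ M S j x).isSome
    · obtain ⟨K', hK'⟩ := Option.isSome_iff_exists.1 h1
      have := lab_succ hK'
      rw [h] at this
      simp only [Option.some.injEq] at this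
      subst this
      obtain ⟨L, fs, U, r, a, b, c, d⟩ := ih hK'
      exact ⟨L, fs, U, r, a, b, by omega, fun v hv => lab_succ (d v hv)⟩
    · have h' := h
      rw [lab_eq, if_neg h1] at h'
      split_ifs at h' with h2
      have h3 := Classical.epsilon_spec h2
      simp only [Option.some.injEq] at h'
      rw [h'] at h3
      obtain ⟨u, hu, w, hw, hwK⟩ := h3
      obtain ⟨L, fs, U, r, a, b, c, d⟩ := ih hwK
      have hdis : Disjoint (cl S x) U := by
        rw [Finset.disjoint_left]
        intro v hv hvU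
        rw [lab_const (mem_cl.1 hv), d v hvU] at h1
        simp at h1
      refine ⟨csz S x :: L, insert s(u, w) fs, cl S x ∪ U, r, a.cons hu hw hdis, b, by simpa using c,
        ?_⟩
      intro v hv
      rw [Finset.mem_union] at hv
      rcases hv with hv | hv
      · rw [← lab_const (mem_cl.1 hv)]; exact h
      · exact lab_succ (d v hv)

end

/-! ### The pigeonhole -/

lemma filter_prod_le {l : List ℕ} (h : ∀ s ∈ l, 1 ≤ s) (p : ℕ → Bool) :
    (l.filter p).prod ≤ l.prod := by
  induction l with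
  | nil => simp
  | cons s l ih =>
    have h1 := ih fun t ht => h t (by simp [ht])
    have hs := h s (by simp)
    rw [List.filter_cons, List.prod_cons]
    split_ifs
    · rw [List.prod_cons]
      exact Nat.mul_le_mul_left _ h1
    · exact h1.trans (Nat.le_mul_of_pos_left _ (by omega))

lemma sum_le_prod_add {l : List ℕ} (h : ∀ s ∈ l, 1 ≤ s) : l.sum ≤ l.prod + l.length := by
  induction l with
  | nil => simp
  | cons s l ih =>
    have h1 := ih fun t ht => h t (by simp [ht])
    have hs := h s (by simp)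
    have hp := one_le_prod fun t ht => h t (List.mem_cons_of_mem s ht)
    rw [List.sum_cons, List.prod_cons, List.length_cons]
    have h2 : s + l.prod ≤ s * l.prod + 1 := by
      obtain ⟨a, rfl⟩ := Nat.exists_eq_add_of_le hs
      obtain ⟨b, hb⟩ := Nat.exists_eq_add_of_le hp
      rw [hb]
      nlinarith [Nat.zero_le (a * b)]
    omega

/-- A threshold separating the small sizes, whose product is small, from the large ones. -/
lemma pigeon {B : ℕ} (hB : 1 ≤ B) (A : List ℕ) (hA : ∀ s ∈ A, 1 ≤ s) :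
    ∃ Q, B ≤ Q ∧ Q ≤ B ^ (9 ^ A.length) ∧
      B * (A.filter (fun s => decide (s < Q ^ 8))).prod ≤ Q := by
  obtain ⟨n, hn⟩ : ∃ n, A.length = n := ⟨_, rfl⟩
  induction n generalizing A with
  | zero =>
    rw [List.length_eq_zero_iff] at hn
    subst hn
    exact ⟨B, le_rfl, by simp, by simp⟩
  | succ n ih =>
    have hne : A.toFinset.Nonempty := by
      rw [List.toFinset_nonempty_iff]
      rintro rfl
      simp at hn
    obtain ⟨s, hs, hmax⟩ := Finset.exists_max_image A.toFinset id hne
    rw [List.mem_toFinset] at hs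
    have hmax' : ∀ t ∈ A, t ≤ s := fun t ht => hmax t (List.mem_toFinset.2 ht)
    have hperm : A.Perm (s :: A.erase s) := List.perm_cons_erase hs
    have hlen : (A.erase s).length = n := by
      rw [List.length_erase_of_mem hs, hn]; rfl
    have hA' : ∀ t ∈ A.erase s, 1 ≤ t := fun t ht => hA t (List.mem_of_mem_erase ht)
    obtain ⟨Q, h1, h2, h3⟩ := ih (A.erase s) hA' hlen
    rw [hlen] at h2
    have hpow : B ^ (9 ^ n) ≤ B ^ (9 ^ (n + 1)) :=
      Nat.pow_le_pow_right hB (Nat.pow_le_pow_right (by norm_num) (by omega))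
    rw [hn]
    by_cases hsQ : Q ^ 8 ≤ s
    · refine ⟨Q, h1, h2.trans hpow, ?_⟩
      have h4 := (hperm.filter (fun s => decide (s < Q ^ 8))).prod_eq
      rw [List.filter_cons_of_neg (by simpa using hsQ)] at h4
      rw [h4]
      exact h3
    · push Not at hsQ
      have h4 : (A.erase s).filter (fun s => decide (s < Q ^ 8)) = A.erase s := by
        rw [List.filter_eq_self]
        intro t ht
        have := hmax' t (List.mem_of_mem_erase ht)
        simp only [decide_eq_true_eq]
        omega
      rw [h4] at h3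
      have hQ1 : 1 ≤ Q := hB.trans h1
      refine ⟨Q ^ 9, h1.trans (Nat.le_self_pow (by norm_num) Q), ?_, ?_⟩
      · calc Q ^ 9 ≤ (B ^ (9 ^ n)) ^ 9 := Nat.pow_le_pow_left h2 9
          _ = B ^ (9 ^ (n + 1)) := by rw [← pow_mul, pow_succ]
      · calc B * (A.filter (fun s => decide (s < (Q ^ 9) ^ 8))).prod ≤ B * A.prod :=
              Nat.mul_le_mul_left _ (filter_prod_le hA _)
          _ = s * (B * (A.erase s).prod) := by
              rw [hperm.prod_eq, List.prod_cons]; ring
          _ ≤ Q ^ 8 * Q := Nat.mul_le_mul hsQ.le h3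
          _ = Q ^ 9 := by ring

/-- Two adjacent cells give the chain event. -/
theorem chain_of_labels {Λ S : Finset (Sym2 V)} {M h B : ℕ} (hB2 : 2 ≤ B) (hBh : h ≤ B)
    (hBM : B ^ (8 * 9 ^ (2 * h)) ≤ M) {x y : V} {K K' : Finset V}
    (hx : lab Λ M S h x = some K) (hy : lab Λ M S h y = some K') (hne : K ≠ K') :
    ∃ Q, B ≤ Q ∧ ChainEv Λ h B Q x y S := by
  obtain ⟨L, fs, U, r, a, hr, hL, hU⟩ := lab_arm hx
  obtain ⟨L', fs', U', r', a', hr', hL', hU'⟩ := lab_arm hy
  have hdis : Disjoint U U' := by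
    rw [Finset.disjoint_left]
    intro v hv hv'
    have h1 := hU v hv
    rw [hU' v hv'] at h1
    simp only [Option.some.injEq] at h1
    exact hne h1.symm
  have hpos : ∀ s ∈ L ++ L', 1 ≤ s := by
    intro s hs
    rw [List.mem_append] at hs
    rcases hs with hs | hs
    · exact a.one_le hs
    · exact a'.one_le hs
  obtain ⟨Q, h1, h2, h3⟩ := pigeon (by omega : 1 ≤ B) (L ++ L') hpos
  have hlen : (L ++ L').length ≤ 2 * h := by rw [List.length_append]; omega
  have hQM : Q ^ 8 ≤ M := by
    refine le_trans ?_ hBM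
    calc Q ^ 8 ≤ (B ^ (9 ^ (L ++ L').length)) ^ 8 := Nat.pow_le_pow_left h2 8
      _ = B ^ (9 ^ (L ++ L').length * 8) := by rw [← pow_mul]
      _ ≤ B ^ (8 * 9 ^ (2 * h)) := by
          apply Nat.pow_le_pow_right (by omega)
          rw [mul_comm]
          exact Nat.mul_le_mul_left _ (Nat.pow_le_pow_right (by norm_num) hlen)
  rw [List.filter_append, List.prod_append] at h3
  obtain ⟨l, es, W, t, b, ht, hW, hl, hlp⟩ := a.truncate (hQM.trans hr)
  obtain ⟨l', es', W', t', b', ht', hW', hl', hlp'⟩ := a'.truncate (hQM.trans hr')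
  have hprod : B * (l.prod * l'.prod) ≤ Q :=
    (Nat.mul_le_mul_left _ (Nat.mul_le_mul hlp hlp')).trans h3
  have p1 := one_le_prod fun s hs => b.one_le hs
  have p2 := one_le_prod fun s hs => b'.one_le hs
  have hQ2 : 2 ≤ Q := hB2.trans h1
  have hP : l.prod * l'.prod ≤ Q := le_trans (Nat.le_mul_of_pos_left _ (by omega)) hprod
  have hPl : l.prod ≤ Q := le_trans (Nat.le_mul_of_pos_right _ (by omega)) hP
  have hPl' : l'.prod ≤ Q := le_trans (Nat.le_mul_of_pos_left _ (by omega)) hP
  have hQ8 : 2 * Q < Q ^ 8 := by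
    have h5 : 2 ^ 7 ≤ Q ^ 7 := Nat.pow_le_pow_left hQ2 7
    have h6 : Q ^ 8 = Q ^ 7 * Q := by ring
    have h7 : 2 ^ 7 * Q ≤ Q ^ 7 * Q := Nat.mul_le_mul_right _ h5
    omega
  have s1 := sum_le_prod_add fun s hs => b.one_le hs
  have s2 := sum_le_prod_add fun s hs => b'.one_le hs
  refine ⟨Q, h1, l, l', ⟨es, es', W, W', t, t', b, b', ?_, ht, ht', by omega, by omega⟩,
    by omega, by omega, hprod⟩
  exact Finset.disjoint_of_subset_left hW (Finset.disjoint_of_subset_right hW' hdis)

end Vale.Agent.P151.R2.H279
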