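import Vale.Agent.P151.R2.H279.Iso
import Vale.Agent.P151.R2.H279.Labels
import Vale.Agent.P151.R2.H279.Explore
import Vale.Agent.P151.R2.H279.Base

/-!
# Counting the cells
-/

set_option autoImplicit false
set_option linter.unusedSectionVars false

open Finset SimpleGraph

namespace Vale.Agent.P151.R2.H279

open Vale.Agent.P151

variable {V : Type*} [DecidableEq V] {G : SimpleGraph V} [G.LocallyFinite]

open Classical in
/-- The pairs of neighbours with different labels. -/
lemma pair_count (hG : G.Connected) {F : Finset V} {d : ℕ} (hd : ∀ v, G.degree v ≤ d)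
    (lb : V → Option (Finset V))
    (EE : Finset (Sym2 V))
    (hE : ∀ w ∈ F, ∀ z ∈ F, G.Adj w z → lb w ≠ none → lb z ≠ none → lb w ≠ lb z → s(w, z) ∈ EE) :
    ∑ w ∈ F.filter (fun w => lb w ≠ none),
      ((G.neighborFinset w).filter (fun z => ¬ (z ∈ F ∧ lb z = lb w))).card ≤
    d * (F.filter fun v => ¬ ballF G v 1 ⊆ F).card + d * (F.filter fun z => lb z = none).card +
      2 * EE.card := by
  have hpt : ∀ w ∈ F.filter (fun w => lb w ≠ none),
      ((G.neighborFinset w).filter (fun z => ¬ (z ∈ F ∧ lb z = lb w))).card ≤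
      (if ¬ ballF G w 1 ⊆ F then d else 0) +
      ((F.filter fun z => lb z = none).filter (fun z => G.Adj w z)).card +
      (EE.filter (fun e => w ∈ e)).card := by
    intro w hw
    rw [Finset.mem_filter] at hw
    have hsub : (G.neighborFinset w).filter (fun z => ¬ (z ∈ F ∧ lb z = lb w)) ⊆
        ((G.neighborFinset w).filter (fun z => z ∉ F) ∪
          ((F.filter fun z => lb z = none).filter (fun z => G.Adj w z))) ∪
          (G.neighborFinset w).filter (fun z => s(w, z) ∈ EE) := by
      intro z hz
      rw [Finset.mem_filter, SimpleGraph.mem_neighborFinset] at hz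
      rw [Finset.mem_union, Finset.mem_union, Finset.mem_filter, Finset.mem_filter,
        Finset.mem_filter, Finset.mem_filter, SimpleGraph.mem_neighborFinset]
      by_cases h1 : z ∈ F
      · by_cases h2 : lb z = none
        · exact Or.inl (Or.inr ⟨⟨h1, h2⟩, hz.1⟩)
        · refine Or.inr ⟨hz.1, hE w hw.1 z h1 hz.1 hw.2 h2 ?_⟩
          intro h3
          exact hz.2 ⟨h1, h3.symm⟩
      · exact Or.inl (Or.inl ⟨hz.1, h1⟩)
    have h1 := Finset.card_le_card hsub
    have h2 := Finset.card_union_le ((G.neighborFinset w).filter (fun z => z ∉ F) ∪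
          ((F.filter fun z => lb z = none).filter (fun z => G.Adj w z)))
          ((G.neighborFinset w).filter (fun z => s(w, z) ∈ EE))
    have h3 := Finset.card_union_le ((G.neighborFinset w).filter (fun z => z ∉ F))
          ((F.filter fun z => lb z = none).filter (fun z => G.Adj w z))
    have h4 : ((G.neighborFinset w).filter (fun z => z ∉ F)).card ≤
        (if ¬ ballF G w 1 ⊆ F then d else 0) := by
      split_ifs with h
      · rw [Nat.le_zero, Finset.card_eq_zero, Finset.filter_eq_empty_iff]
        intro z hz hzF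
        apply hzF
        apply h
        rw [SimpleGraph.mem_neighborFinset] at hz
        rw [mem_ballF_iff hG]
        exact (SimpleGraph.dist_eq_one_iff_adj.2 hz.symm).le
      · exact (Finset.card_filter_le _ _).trans (hd w)
    have h5 : ((G.neighborFinset w).filter (fun z => s(w, z) ∈ EE)).card ≤
        (EE.filter (fun e => w ∈ e)).card := by
      apply Finset.card_le_card_of_injOn (fun z => s(w, z))
      · intro z hz
        rw [Finset.mem_coe, Finset.mem_filter] at hz
        rw [Finset.mem_coe, Finset.mem_filter]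
        exact ⟨hz.2, Sym2.mem_mk_left w z⟩
      · intro z _ z' _ hzz
        exact Sym2.congr_right.1 hzz
    omega
  have hs1 : ∑ w ∈ F.filter (fun w => lb w ≠ none), (if ¬ ballF G w 1 ⊆ F then d else 0) ≤
      d * (F.filter fun v => ¬ ballF G v 1 ⊆ F).card := by
    calc ∑ w ∈ F.filter (fun w => lb w ≠ none), (if ¬ ballF G w 1 ⊆ F then d else 0)
        ≤ ∑ w ∈ F, (if ¬ ballF G w 1 ⊆ F then d else 0) :=
          Finset.sum_le_sum_of_subset (Finset.filter_subset _ _)
      _ = d * (F.filter fun v => ¬ ballF G v 1 ⊆ F).card := by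
          rw [← Finset.sum_filter, Finset.sum_const, smul_eq_mul, mul_comm]
  have hs2 : ∑ w ∈ F.filter (fun w => lb w ≠ none),
      ((F.filter fun z => lb z = none).filter (fun z => G.Adj w z)).card ≤
      d * (F.filter fun z => lb z = none).card := by
    simp_rw [Finset.card_filter (fun z => G.Adj _ z)]
    rw [Finset.sum_comm]
    calc ∑ z ∈ F.filter (fun z => lb z = none), ∑ w ∈ F.filter (fun w => lb w ≠ none),
          (if G.Adj w z then 1 else 0)
        ≤ ∑ z ∈ F.filter (fun z => lb z = none), d := by
          apply Finset.sum_le_sum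
          intro z _
          rw [← Finset.card_filter]
          refine le_trans (Finset.card_le_card ?_) (hd z)
          intro w hw
          rw [Finset.mem_filter] at hw
          rw [SimpleGraph.mem_neighborFinset]
          exact hw.2.symm
      _ = d * (F.filter fun z => lb z = none).card := by
          rw [Finset.sum_const, smul_eq_mul, mul_comm]
  have hs3 : ∑ w ∈ F.filter (fun w => lb w ≠ none), (EE.filter (fun e => w ∈ e)).card ≤
      2 * EE.card := by
    simp_rw [Finset.card_filter (fun e => _ ∈ e)]
    rw [Finset.sum_comm]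
    calc ∑ e ∈ EE, ∑ w ∈ F.filter (fun w => lb w ≠ none), (if w ∈ e then 1 else 0)
        ≤ ∑ e ∈ EE, 2 := by
          apply Finset.sum_le_sum
          intro e _
          rw [← Finset.card_filter]
          induction e with
          | _ a b =>
            refine le_trans (Finset.card_le_card (t := {a, b}) ?_) Finset.card_le_two
            intro w hw
            rw [Finset.mem_filter, Sym2.mem_iff] at hw
            rw [Finset.mem_insert, Finset.mem_singleton]
            exact hw.2
      _ = 2 * EE.card := by rw [Finset.sum_const, smul_eq_mul, mul_comm]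
  refine (Finset.sum_le_sum hpt).trans ?_
  rw [Finset.sum_add_distrib, Finset.sum_add_distrib]
  omega

open Classical in
/-- **Counting the cells.** -/
lemma cells (hG : G.Connected) {C : ℝ} (hC : 0 < C)
    (hiso : ∀ (W : Finset V) (r : ℕ), (∀ x, 2 * W.card ≤ (ballF G x r).card) →
      (W.card : ℝ) ≤ C * r * ∑ w ∈ W, (((G.neighborFinset w).filter (fun z => z ∉ W)).card : ℝ))
    {F : Finset V} {S : Finset (Sym2 V)} {d n M h B r : ℕ}
    (hd : ∀ v, G.degree v ≤ d) (hn : 1 ≤ n) (hMn : M ≤ n) (hB2 : 2 ≤ B) (hBh : h ≤ B)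
    (hBM : B ^ (8 * 9 ^ (2 * h)) ≤ M) (hr : ∀ x, 2 * n ^ 3 ≤ (ballF G x r).card) :
    ((F.filter fun v => n ≤ csz S v ∧ csz S v < n ^ 2).card : ℝ) ≤
      F.card / n + C * r * (d * (F.filter fun v => ¬ ballF G v 1 ⊆ F).card +
        d * (F.filter fun z => z ∉ Lv (edgesIn G F) M S h).card +
        2 * ((edgesIn G F).filter (EvE (edgesIn G F) h B S)).card) := by
  set Λ := edgesIn G F with hΛ
  set lb := lab Λ M S h with hlb
  set Y := F.filter fun v => n ≤ csz S v ∧ csz S v < n ^ 2 with hY
  set KK := Y.image (cl S) with hKK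
  set W : Finset V → Finset V := fun K => F.filter fun v => lb v = some K with hW
  have hnR : (0 : ℝ) < n := by exact_mod_cast hn
  -- disjointness
  have hdisj : ∀ T : Finset (Finset V), (T : Set (Finset V)).PairwiseDisjoint W := by
    intro T K _ K' _ hne
    rw [Function.onFun, Finset.disjoint_left]
    intro v hv hv'
    rw [hW, Finset.mem_filter] at hv hv'
    have := hv.2.symm.trans hv'.2
    rw [Option.some_inj] at this
    exact hne this
  have hsubF : ∀ T : Finset (Finset V), T.biUnion W ⊆ F.filter (fun w => lb w ≠ none) := by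
    intro T v hv
    rw [Finset.mem_biUnion] at hv
    obtain ⟨K, _, hv⟩ := hv
    rw [hW, Finset.mem_filter] at hv
    rw [Finset.mem_filter]
    exact ⟨hv.1, by rw [hv.2]; simp⟩
  -- the fibres
  have hfib : ∀ K : Finset V, Y.filter (fun v => cl S v = K) ⊆ W K := by
    intro K v hv
    rw [Finset.mem_filter, hY, Finset.mem_filter] at hv
    rw [hW, Finset.mem_filter]
    refine ⟨hv.1.1, ?_⟩
    rw [hlb, lab_zero (hMn.trans hv.1.2.1), hv.2]
  have hfib2 : ∀ K ∈ KK, (Y.filter (fun v => cl S v = K)).card ≤ n ^ 2 := by
    intro K hK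
    rw [hKK, Finset.mem_image] at hK
    obtain ⟨v, hv, rfl⟩ := hK
    rw [hY, Finset.mem_filter] at hv
    refine le_trans (Finset.card_le_card (t := cl S v) ?_) hv.2.2.le
    intro w hw
    rw [Finset.mem_filter] at hw
    rw [← hw.2]
    exact self_mem_cl S w
  have hcardY : (Y.card : ℝ) = ∑ K ∈ KK, ((Y.filter (fun v => cl S v = K)).card : ℝ) := by
    have := Finset.card_eq_sum_card_image (cl S) Y
    rw [this]
    push_cast
    rfl
  rw [hcardY, ← Finset.sum_filter_not_add_sum_filter KK (fun K => (W K).card < n ^ 3)]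
  apply add_le_add
  · -- bad clusters
    set T := KK.filter (fun K => ¬ (W K).card < n ^ 3) with hT
    have h1 : ∑ K ∈ T, ((Y.filter (fun v => cl S v = K)).card : ℝ) ≤ T.card * (n : ℝ) ^ 2 := by
      rw [← nsmul_eq_mul, ← Finset.sum_const]
      apply Finset.sum_le_sum
      intro K hK
      have := hfib2 K (Finset.mem_filter.1 hK).1
      exact_mod_cast this
    have h2 : T.card * n ^ 3 ≤ F.card := by
      calc T.card * n ^ 3 = ∑ K ∈ T, n ^ 3 := by rw [Finset.sum_const, smul_eq_mul]
        _ ≤ ∑ K ∈ T, (W K).card := by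
            apply Finset.sum_le_sum
            intro K hK
            exact not_lt.1 (Finset.mem_filter.1 hK).2
        _ = (T.biUnion W).card := (Finset.card_biUnion (hdisj T)).symm
        _ ≤ F.card := Finset.card_le_card ((hsubF T).trans (Finset.filter_subset _ _))
    have h2' : (T.card : ℝ) * (n : ℝ) ^ 3 ≤ F.card := by exact_mod_cast h2
    refine h1.trans ?_
    rw [le_div_iff₀ hnR]
    have e : (T.card : ℝ) * (n : ℝ) ^ 2 * (n : ℝ) = T.card * (n : ℝ) ^ 3 := by ring
    rw [e]
    exact h2'
  · -- good clusters
    set T := KK.filter (fun K => (W K).card < n ^ 3) with hT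
    have h1 : ∑ K ∈ T, ((Y.filter (fun v => cl S v = K)).card : ℝ) ≤
        ∑ K ∈ T, C * r * ∑ w ∈ W K,
          (((G.neighborFinset w).filter (fun z => ¬ (z ∈ F ∧ lb z = lb w))).card : ℝ) := by
      apply Finset.sum_le_sum
      intro K hK
      have h3 : (Y.filter (fun v => cl S v = K)).card ≤ (W K).card :=
        Finset.card_le_card (hfib K)
      have h4 := hiso (W K) r (fun x => by
        have := (Finset.mem_filter.1 hK).2
        have := hr x
        omega)
      have h5 : ∑ w ∈ W K, (((G.neighborFinset w).filter (fun z => z ∉ W K)).card : ℝ) =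
          ∑ w ∈ W K,
          (((G.neighborFinset w).filter (fun z => ¬ (z ∈ F ∧ lb z = lb w))).card : ℝ) := by
        apply Finset.sum_congr rfl
        intro w hw
        congr 2
        apply Finset.filter_congr
        intro z _
        rw [hW, Finset.mem_filter] at hw
        rw [hW, Finset.mem_filter, hw.2]
      rw [h5] at h4
      have h3' : ((Y.filter (fun v => cl S v = K)).card : ℝ) ≤ (W K).card := by exact_mod_cast h3
      exact h3'.trans h4
    refine h1.trans ?_
    rw [← Finset.mul_sum, ← Finset.sum_biUnion (hdisj T)]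
    apply mul_le_mul_of_nonneg_left _ (by positivity)
    have h6 : ∑ w ∈ T.biUnion W,
        ((G.neighborFinset w).filter (fun z => ¬ (z ∈ F ∧ lb z = lb w))).card ≤
        ∑ w ∈ F.filter (fun w => lb w ≠ none),
        ((G.neighborFinset w).filter (fun z => ¬ (z ∈ F ∧ lb z = lb w))).card :=
      Finset.sum_le_sum_of_subset (hsubF T)
    have h7 := pair_count hG hd lb (Λ.filter (EvE Λ h B S)) (F := F) (by
      intro w hw z hz hadj hlw hlz hne
      rw [Finset.mem_filter]
      refine ⟨?_, ?_⟩
      · rw [hΛ]; exact mk_mem_edgesIn.2 ⟨hadj, hw, hz⟩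
      · obtain ⟨K, hK⟩ := Option.ne_none_iff_exists'.1 hlw
        obtain ⟨K', hK'⟩ := Option.ne_none_iff_exists'.1 hlz
        refine ⟨w, z, rfl, ?_⟩
        apply chain_of_labels hB2 hBh hBM hK hK'
        intro h
        apply hne
        rw [hK, hK', h])
    have h8 : (F.filter fun z => lb z = none) = F.filter fun z => z ∉ Lv Λ M S h := by
      apply Finset.filter_congr
      intro z _
      show lab Λ M S h z = none ↔ z ∉ Lv Λ M S h
      rw [← lab_isSome, ← Option.isNone_iff_eq_none]
      simp
    rw [h8] at h7
    have h9 := h6.trans h7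
    exact_mod_cast h9

end Vale.Agent.P151.R2.H279
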