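import Vale.Agent.P151.Bdl.B1

/-!
# Growth `exp (c n ^ a)`: definitions
-/

set_option autoImplicit false

open Finset SimpleGraph

namespace Vale.Agent.P151.R2.H279

open Vale.Agent.P151

variable {V : Type*} [DecidableEq V]

open Classical in
/-- Indicator that no vertex of `A` is in a cluster of size at least `n`. -/
noncomputable def missI (n : ℕ) (A : Finset V) (S : Finset (Sym2 V)) : ℝ :=
  if ∀ a ∈ A, csz S a < n then 1 else 0

/-- The vertices at Hamming distance at most `j` from the clusters of size at least `M`: one may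
cross at most `j` edges of `Λ` (open or closed) between clusters. -/
def Lv (Λ : Finset (Sym2 V)) (M : ℕ) (S : Finset (Sym2 V)) : ℕ → Set V
  | 0 => {v | M ≤ csz S v}
  | j + 1 => {v | v ∈ Lv Λ M S j ∨ ∃ u ∈ cl S v, ∃ w, s(u, w) ∈ Λ ∧ w ∈ Lv Λ M S j}

end Vale.Agent.P151.R2.H279
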