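import Vale.Agent.P151.Bdl.B1

/-!
# The choice of the parameters at each scale
-/

set_option autoImplicit false

namespace Vale.Agent.P151.R2.H279

lemma cube_le_two_pow {j : ℕ} (hj : 16 ≤ j) : (j + 1) ^ 3 ≤ 2 ^ j := by
  induction j, hj using Nat.le_induction with
  | base => norm_num
  | succ j hj ih =>
    have h1 : (j + 1 + 1) ^ 3 ≤ 2 * (j + 1) ^ 3 := by
      nlinarith [mul_le_mul hj hj (by norm_num) (by omega), sq_nonneg (j : ℤ)]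
    calc (j + 1 + 1) ^ 3 ≤ 2 * (j + 1) ^ 3 := h1
      _ ≤ 2 * 2 ^ j := Nat.mul_le_mul_left 2 ih
      _ = 2 ^ (j + 1) := by ring

lemma sq_le_two_pow (A : ℕ) : ∃ J : ℕ, ∀ j, J ≤ j → A * (j + 1) ^ 2 ≤ 2 ^ j := by
  refine ⟨max A 16, fun j hj => ?_⟩
  have h1 : A ≤ j := (le_max_left _ _).trans hj
  have h2 : 16 ≤ j := (le_max_right _ _).trans hj
  calc A * (j + 1) ^ 2 ≤ (j + 1) * (j + 1) ^ 2 := Nat.mul_le_mul_right _ (by omega)
    _ = (j + 1) ^ 3 := by ring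
    _ ≤ 2 ^ j := cube_le_two_pow h2

/-- The volume condition. -/
lemma params_M (s0 d β : ℕ) : ∃ K0 : ℕ, ∀ k, K0 ≤ k →
    ((1 + d) * (2 ^ (β * k)) ^ (8 * 9 ^ (2 * (s0 + k / 8)))) ^ (s0 + k / 8 + 2) ≤ 2 ^ (2 ^ k) := by
  obtain ⟨J, hJ⟩ := sq_le_two_pow ((d + 64 * β * 81 ^ s0) * (s0 + 2))
  refine ⟨8 * J, fun k hk => ?_⟩
  set j := k / 8 with hj
  have hJj : J ≤ j := by omega
  have hk1 : k ≤ 8 * (j + 1) := by omega
  have hk2 : 8 * j ≤ k := by omega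
  have h1 : (1 + d) ≤ 2 ^ d := by
    have := Nat.lt_two_pow_self (n := d)
    omega
  have h2 : (2 ^ (β * k)) ^ (8 * 9 ^ (2 * (s0 + j))) = 2 ^ (β * k * (8 * (81 ^ s0 * 81 ^ j))) := by
    rw [← pow_mul]
    congr 2
    rw [pow_mul, ← pow_add]
    norm_num
  have h3 : (1 + d) * (2 ^ (β * k)) ^ (8 * 9 ^ (2 * (s0 + j))) ≤
      2 ^ (d + β * k * (8 * (81 ^ s0 * 81 ^ j))) := by
    rw [h2, pow_add]
    exact Nat.mul_le_mul_right _ h1
  calc ((1 + d) * (2 ^ (β * k)) ^ (8 * 9 ^ (2 * (s0 + j)))) ^ (s0 + j + 2)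
      ≤ (2 ^ (d + β * k * (8 * (81 ^ s0 * 81 ^ j)))) ^ (s0 + j + 2) := Nat.pow_le_pow_left h3 _
    _ = 2 ^ ((d + β * k * (8 * (81 ^ s0 * 81 ^ j))) * (s0 + j + 2)) := by rw [← pow_mul]
    _ ≤ 2 ^ (2 ^ k) := by
        apply Nat.pow_le_pow_right (by norm_num)
        have h4 : 81 ^ j ≤ 2 ^ (7 * j) := by
          rw [pow_mul]
          exact Nat.pow_le_pow_left (by norm_num) _
        have h5 : 1 ≤ 2 ^ (7 * j) := Nat.one_le_two_pow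
        have h6 : d + β * k * (8 * (81 ^ s0 * 81 ^ j)) ≤
            (d + 64 * β * 81 ^ s0) * ((j + 1) * 2 ^ (7 * j)) := by
          have e1 : d ≤ d * ((j + 1) * 2 ^ (7 * j)) := by
            apply Nat.le_mul_of_pos_right
            positivity
          have e2 : β * k * (8 * (81 ^ s0 * 81 ^ j)) ≤
              β * (8 * (j + 1)) * (8 * (81 ^ s0 * 2 ^ (7 * j))) := by
            apply Nat.mul_le_mul
            · exact Nat.mul_le_mul_left _ hk1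
            · exact Nat.mul_le_mul_left _ (Nat.mul_le_mul_left _ h4)
          have e3 : β * (8 * (j + 1)) * (8 * (81 ^ s0 * 2 ^ (7 * j))) =
              64 * β * 81 ^ s0 * ((j + 1) * 2 ^ (7 * j)) := by ring
          rw [add_mul]
          omega
        have h7 : s0 + j + 2 ≤ (s0 + 2) * (j + 1) := by nlinarith
        calc (d + β * k * (8 * (81 ^ s0 * 81 ^ j))) * (s0 + j + 2)
            ≤ ((d + 64 * β * 81 ^ s0) * ((j + 1) * 2 ^ (7 * j))) * ((s0 + 2) * (j + 1)) :=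
              Nat.mul_le_mul h6 h7
          _ = ((d + 64 * β * 81 ^ s0) * (s0 + 2) * (j + 1) ^ 2) * 2 ^ (7 * j) := by ring
          _ ≤ 2 ^ j * 2 ^ (7 * j) := Nat.mul_le_mul_right _ (hJ j hJj)
          _ = 2 ^ (8 * j) := by rw [← pow_add]; congr 1; ring
          _ ≤ 2 ^ k := Nat.pow_le_pow_right (by norm_num) hk2

/-- The error terms. -/
lemma params_err (s0 d α C2 : ℕ) {q p0 : ℝ} (hq : 1 ≤ q) (hp0 : 0 < p0) :
    ∃ β : ℕ, 3 ≤ β ∧ ∃ C4 : ℝ, 0 < C4 ∧ ∀ (k : ℕ) (p η : ℝ), p0 ≤ p → 0 ≤ η →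
      η ≤ (1 / 2) ^ (8 * (α + 3)) →
      1 / ((2 ^ (2 ^ k) : ℕ) : ℝ) + ((C2 * 2 ^ (α * k) : ℕ) : ℝ) * (d * η ^ (s0 + k / 8 - s0) +
        16 * d * (((s0 + k / 8 : ℕ) : ℝ) + 1) ^ 2 * (2 * q) ^ (2 * (s0 + k / 8)) /
          (p * (((2 ^ (β * k) : ℕ) : ℝ)) ^ 3)) ≤ C4 * (1 / 2) ^ k := by
  obtain ⟨C3, hC3⟩ : ∃ C3 : ℕ, (2 * q) ^ 2 ≤ 2 ^ C3 := by
    obtain ⟨C3, hC3⟩ := pow_unbounded_of_one_lt ((2 * q) ^ 2) (show (1 : ℝ) < 2 by norm_num)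
    exact ⟨C3, hC3.le⟩
  refine ⟨α + C3 + 3, by omega, 1 + C2 * d * 2 ^ (7 * (α + 3)) +
    C2 * (16 * d * (s0 + 1) ^ 2 * (2 * q) ^ (2 * s0) / p0), by positivity, ?_⟩
  intro k p η hp hη hη1
  set j := k / 8 with hj
  have hk1 : k ≤ 8 * j + 7 := by omega
  have hk2 : j ≤ k := by omega
  have hp' : 0 < p := lt_of_lt_of_le hp0 hp
  have hsub : s0 + j - s0 = j := by omega
  rw [hsub]
  have hhalf : ∀ m : ℕ, ((1 : ℝ) / 2) ^ m * 2 ^ m = 1 := fun m => by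
    rw [← mul_pow]; norm_num
  have h2pos : ∀ m : ℕ, (0 : ℝ) < 2 ^ m := fun m => by positivity
  have hx : ∀ m : ℕ, ((1 : ℝ) / 2) ^ m = 1 / 2 ^ m := fun m => by
    rw [one_div_pow]
  -- the first term
  have t1 : 1 / ((2 ^ (2 ^ k) : ℕ) : ℝ) ≤ (1 / 2) ^ k := by
    rw [hx]
    push_cast
    apply one_div_le_one_div_of_le (h2pos k)
    exact pow_le_pow_right₀ (by norm_num) (Nat.lt_two_pow_self).le
  -- the second term
  have t2 : (2 : ℝ) ^ (α * k) * η ^ j ≤ 2 ^ (7 * (α + 3)) * (1 / 2) ^ k := by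
    have e1 : η ^ j ≤ ((1 / 2 : ℝ) ^ (8 * (α + 3))) ^ j := pow_le_pow_left₀ hη hη1 j
    rw [← pow_mul] at e1
    calc (2 : ℝ) ^ (α * k) * η ^ j ≤ 2 ^ (α * k) * (1 / 2 : ℝ) ^ (8 * (α + 3) * j) :=
          mul_le_mul_of_nonneg_left e1 (h2pos _).le
      _ ≤ 2 ^ (7 * (α + 3)) * (1 / 2) ^ k := by
          rw [hx, hx, mul_one_div, mul_one_div, div_le_div_iff₀ (h2pos _) (h2pos _), ← pow_add,
            ← pow_add]
          apply pow_le_pow_right₀ (by norm_num)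
          have : (α + 3) * k ≤ (α + 3) * (8 * j + 7) := Nat.mul_le_mul_left _ hk1
          nlinarith
  -- the third term
  have t3 : (2 : ℝ) ^ (α * k) * (16 * d * (((s0 + j : ℕ) : ℝ) + 1) ^ 2 *
      (2 * q) ^ (2 * (s0 + j)) / (p * (((2 ^ ((α + C3 + 3) * k) : ℕ) : ℝ)) ^ 3)) ≤
      (16 * d * (s0 + 1) ^ 2 * (2 * q) ^ (2 * s0) / p0) * (1 / 2) ^ k := by
    have e1 : (((s0 + j : ℕ) : ℝ) + 1) ^ 2 ≤ (s0 + 1) ^ 2 * (2 ^ k) ^ 2 := by
      rw [← mul_pow]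
      apply pow_le_pow_left₀ (by positivity)
      have a1 : j + 1 ≤ 2 ^ k := by
        have := Nat.lt_two_pow_self (n := k)
        omega
      have a2 : s0 + j + 1 ≤ (s0 + 1) * 2 ^ k := by
        calc s0 + j + 1 ≤ (s0 + 1) * (j + 1) := by nlinarith
          _ ≤ (s0 + 1) * 2 ^ k := Nat.mul_le_mul_left _ a1
      exact_mod_cast a2
    have e2 : (2 * q) ^ (2 * (s0 + j)) ≤ (2 * q) ^ (2 * s0) * (2 ^ C3) ^ k := by
      rw [mul_add, pow_add]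
      apply mul_le_mul_of_nonneg_left _ (by positivity)
      calc (2 * q) ^ (2 * j) = ((2 * q) ^ 2) ^ j := by rw [pow_mul]
        _ ≤ (2 ^ C3) ^ j := pow_le_pow_left₀ (by positivity) hC3 j
        _ ≤ (2 ^ C3) ^ k := pow_le_pow_right₀ (one_le_pow₀ (by norm_num)) hk2
    have e3 : 16 * d * (((s0 + j : ℕ) : ℝ) + 1) ^ 2 * (2 * q) ^ (2 * (s0 + j)) ≤
        16 * d * ((s0 + 1) ^ 2 * (2 ^ k) ^ 2) * ((2 * q) ^ (2 * s0) * (2 ^ C3) ^ k) := by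
      apply mul_le_mul _ e2 (by positivity) (by positivity)
      exact mul_le_mul_of_nonneg_left e1 (by positivity)
    have e4 : 16 * d * (((s0 + j : ℕ) : ℝ) + 1) ^ 2 * (2 * q) ^ (2 * (s0 + j)) /
        (p * (((2 ^ ((α + C3 + 3) * k) : ℕ) : ℝ)) ^ 3) ≤
        16 * d * ((s0 + 1) ^ 2 * (2 ^ k) ^ 2) * ((2 * q) ^ (2 * s0) * (2 ^ C3) ^ k) /
        (p0 * (((2 ^ ((α + C3 + 3) * k) : ℕ) : ℝ)) ^ 3) := by
      apply div_le_div₀ (by positivity) e3 (by positivity)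
      exact mul_le_mul_of_nonneg_right hp (by positivity)
    refine (mul_le_mul_of_nonneg_left e4 (h2pos _).le).trans ?_
    push_cast
    rw [hx]
    have e5 : (2 : ℝ) ^ (α * k) * (16 * d * ((s0 + 1) ^ 2 * (2 ^ k) ^ 2) *
        ((2 * q) ^ (2 * s0) * (2 ^ C3) ^ k) / (p0 * (2 ^ ((α + C3 + 3) * k)) ^ 3)) =
        (16 * d * (s0 + 1) ^ 2 * (2 * q) ^ (2 * s0) / p0) *
        ((2 ^ (α * k) * (2 ^ k) ^ 2 * (2 ^ C3) ^ k) / (2 ^ ((α + C3 + 3) * k)) ^ 3) := by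
      field_simp
    rw [e5]
    apply mul_le_mul_of_nonneg_left _ (by positivity)
    rw [div_le_div_iff₀ (by positivity) (h2pos k), one_mul]
    rw [← pow_mul, ← pow_mul, ← pow_mul, ← pow_add, ← pow_add, ← pow_add]
    apply pow_le_pow_right₀ (by norm_num)
    nlinarith [Nat.zero_le (α * k), Nat.zero_le (C3 * k)]
  push_cast at t1 t3 ⊢
  calc 1 / (2 : ℝ) ^ 2 ^ k + C2 * 2 ^ (α * k) * (d * η ^ j +
        16 * d * ((s0 : ℝ) + j + 1) ^ 2 * (2 * q) ^ (2 * (s0 + j)) /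
          (p * (2 ^ ((α + C3 + 3) * k)) ^ 3))
      = 1 / (2 : ℝ) ^ 2 ^ k + C2 * d * (2 ^ (α * k) * η ^ j) +
        C2 * (2 ^ (α * k) * (16 * d * ((s0 : ℝ) + j + 1) ^ 2 * (2 * q) ^ (2 * (s0 + j)) /
          (p * (2 ^ ((α + C3 + 3) * k)) ^ 3))) := by ring
    _ ≤ (1 / 2) ^ k + C2 * d * (2 ^ (7 * (α + 3)) * (1 / 2) ^ k) +
        C2 * ((16 * d * (s0 + 1) ^ 2 * (2 * q) ^ (2 * s0) / p0) * (1 / 2) ^ k) := by
        apply add_le_add
        · apply add_le_add t1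
          exact mul_le_mul_of_nonneg_left t2 (by positivity)
        · exact mul_le_mul_of_nonneg_left t3 (by positivity)
    _ = _ := by ring

end Vale.Agent.P151.R2.H279
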