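import Vale.Agent.P151.R2.H279.Step
import Vale.Agent.P151.R2.H279.Params

/-!
# The induction over the scales `2 ^ 2 ^ k`
-/

set_option autoImplicit false
set_option linter.unusedSectionVars false

open Finset SimpleGraph Filter Topology

namespace Vale.Agent.P151.R2.H279

open Vale.Agent.P151

section
variable {V : Type*} [DecidableEq V] {G : SimpleGraph V} [G.LocallyFinite]

lemma Miss.mono {p : ℝ} {n s0 : ℕ} {η η' : ℝ} (h : Miss G p n s0 η) (hη : η ≤ η') :
    Miss G p n s0 η' := fun A F hA hAF => (h A F hA hAF).trans hη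

lemma Miss.next (hG : G.Connected) {p : ℝ} (h0 : 0 ≤ p) (h1 : p ≤ 1) {n s0 : ℕ} (hn : 1 ≤ n)
    {η u : ℝ} (h : Miss G p n s0 η)
    (hu : ∀ x, phiB G n x p - phiB G (n ^ 2) x p ≤ u) : Miss G p (n ^ 2) s0 (η + s0 * u) := by
  intro A F hA hAF
  have hn2 : n ≤ n ^ 2 := by nlinarith
  obtain ⟨X, hXA, hX⟩ := Finset.exists_subset_card_eq hA
  have hXF : ∀ x ∈ X, ballF G x n ⊆ F := fun x hx => (ballF_mono G x hn2).trans (hAF x (hXA hx))
  calc Ex p (edgesIn G F) (missI (n ^ 2) A)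
      ≤ Ex p (edgesIn G F) (fun S => missI n X S + ∑ x ∈ X, (big n x S - big (n ^ 2) x S)) := by
        apply Ex_mono h0 h1
        intro S _
        exact (missI_mono_set _ hXA S).trans (missI_union_bound hn2 X S)
    _ = Ex p (edgesIn G F) (missI n X) + ∑ x ∈ X, (phiB G n x p - phiB G (n ^ 2) x p) := by
        rw [Ex_add, Ex_sum]
        congr 1
        apply Finset.sum_congr rfl
        intro x hx
        rw [Ex_sub, Ex_big_local hG p (hXF x hx), Ex_big_local hG p (hAF x (hXA hx))]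
    _ ≤ η + s0 * u := by
        apply add_le_add (h X F hX.ge hXF)
        calc ∑ x ∈ X, (phiB G n x p - phiB G (n ^ 2) x p) ≤ ∑ x ∈ X, u :=
              Finset.sum_le_sum fun x _ => hu x
          _ = s0 * u := by rw [Finset.sum_const, hX, nsmul_eq_mul]

/-- Below `p_c` the property `Miss` fails at large scales. -/
lemma tail_contra [Infinite V] (hG : G.Connected) {p : ℝ} (h0 : 0 ≤ p) (h1 : p ≤ 1)
    (hp : p < pc G) {s0 : ℕ} {η : ℝ} (hη : η < 1)
    (h : ∀ K : ℕ, ∃ n, K ≤ n ∧ Miss G p n s0 η) : False := by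
  obtain ⟨X, hX⟩ := Infinite.exists_subset_card_eq V s0
  have hlim : Tendsto (fun n => ∑ x ∈ X, phiB G n x p) atTop (𝓝 0) := by
    have : (0 : ℝ) = ∑ x ∈ X, (0 : ℝ) := by simp
    rw [this]
    apply tendsto_finsetSum
    intro x _
    exact tendsto_phiB_zero G hG h0 h1 hp x
  obtain ⟨K, hK⟩ := Filter.eventually_atTop.1 (hlim.eventually (gt_mem_nhds (show (0 : ℝ) < 1 - η
    by linarith)))
  obtain ⟨n, hn, hmiss⟩ := h K
  have h2 := hK n hn
  set F := X.biUnion (fun x => ballF G x n) with hF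
  have hXF : ∀ x ∈ X, ballF G x n ⊆ F := fun x hx =>
    Finset.subset_biUnion_of_mem (fun x => ballF G x n) hx
  have h3 := hmiss X F hX.ge hXF
  have h4 : (1 : ℝ) ≤ Ex p (edgesIn G F) (missI n X) + ∑ x ∈ X, phiB G n x p := by
    calc (1 : ℝ) = Ex p (edgesIn G F) (fun _ => (1 : ℝ)) := (Ex_const _ _ _).symm
      _ ≤ Ex p (edgesIn G F) (fun S => missI n X S + ∑ x ∈ X, big n x S) := by
          apply Ex_mono h0 h1
          intro S _
          by_cases hA : ∀ a ∈ X, csz S a < n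
          · have e : missI n X S = 1 := by unfold missI; rw [if_pos hA]
            have e2 : 0 ≤ ∑ x ∈ X, big n x S := Finset.sum_nonneg fun x _ => big_nonneg n x S
            linarith
          · push Not at hA
            obtain ⟨a, ha, han⟩ := hA
            have e := Finset.single_le_sum (f := fun x => big n x S)
              (fun x _ => big_nonneg n x S) ha
            have e2 : big n a S = 1 := by unfold big; rw [if_pos han]
            have e3 := missI_nonneg n X S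
            linarith
      _ = Ex p (edgesIn G F) (missI n X) + ∑ x ∈ X, phiB G n x p := by
          rw [Ex_add, Ex_sum]
          congr 1
          apply Finset.sum_congr rfl
          intro x hx
          exact Ex_big_local hG p (hXF x hx)
  linarith

/-- The volume growth at the scale `2 ^ 2 ^ k`. -/
lemma growth (hG : G.Connected) {R : Finset V} (hR : ∀ x : V, ∃ g : G ≃g G, g x ∈ R) {o : V}
    {c a : ℝ} (hc : 0 < c) (ha : 0 < a)
    (hgrow : ∀ r : ℕ, Real.exp (c * (r : ℝ) ^ a) ≤ (ballF G o r).card) :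
    ∃ α C2 : ℕ, ∀ (k : ℕ) (x : V), 2 * (2 ^ (2 ^ k)) ^ 3 ≤ (ballF G x (C2 * 2 ^ (α * k))).card := by
  obtain ⟨D, hD⟩ := cobounded hG hR
  obtain ⟨α, hα⟩ := exists_nat_ge (1 / a)
  obtain ⟨C1, hC1⟩ := exists_nat_ge ((4 / c) ^ (1 / a))
  refine ⟨α, C1 + D, fun k x => ?_⟩
  obtain ⟨g, hg⟩ := hD o x
  have h1 : (ballF G o (C1 * 2 ^ (α * k))).card ≤ (ballF G x ((C1 + D) * 2 ^ (α * k))).card := by
    rw [← card_ballF_aut hG g]
    apply Finset.card_le_card
    intro z hz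
    rw [mem_ballF_iff hG] at hz ⊢
    have h2 := hG.dist_triangle (u := z) (v := g o) (w := x)
    have h3 : 1 ≤ 2 ^ (α * k) := Nat.one_le_two_pow
    have h4 : D ≤ D * 2 ^ (α * k) := Nat.le_mul_of_pos_right _ (by omega)
    rw [add_mul]
    omega
  refine le_trans ?_ h1
  have h5 := hgrow (C1 * 2 ^ (α * k))
  have h6 : (4 : ℝ) * 2 ^ k ≤ c * ((C1 * 2 ^ (α * k) : ℕ) : ℝ) ^ a := by
    push_cast
    rw [Real.mul_rpow (by positivity) (by positivity)]
    have e1 : 4 / c ≤ (C1 : ℝ) ^ a := by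
      calc 4 / c = ((4 / c) ^ (1 / a)) ^ a := by
            rw [← Real.rpow_mul (by positivity), one_div_mul_cancel ha.ne', Real.rpow_one]
        _ ≤ (C1 : ℝ) ^ a := Real.rpow_le_rpow (by positivity) hC1 ha.le
    have e2 : (2 : ℝ) ^ k ≤ ((2 : ℝ) ^ (α * k)) ^ a := by
      rw [← Real.rpow_natCast 2 (α * k), ← Real.rpow_mul (by norm_num), ← Real.rpow_natCast 2 k]
      apply Real.rpow_le_rpow_of_exponent_le (by norm_num)
      push_cast
      have : 1 ≤ α * a := by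
        rw [div_le_iff₀ ha] at hα
        exact hα
      nlinarith [Nat.cast_nonneg (α := ℝ) k]
    calc (4 : ℝ) * 2 ^ k = c * (4 / c * 2 ^ k) := by field_simp
      _ ≤ c * ((C1 : ℝ) ^ a * ((2 : ℝ) ^ (α * k)) ^ a) := by
          apply mul_le_mul_of_nonneg_left _ hc.le
          exact mul_le_mul e1 e2 (by positivity) (by positivity)
  have h7 : ((2 * (2 ^ (2 ^ k)) ^ 3 : ℕ) : ℝ) ≤ Real.exp (4 * 2 ^ k) := by
    have e1 : (2 : ℝ) ≤ Real.exp 1 := by
      have := Real.add_one_le_exp (1 : ℝ)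
      linarith
    have e2 : 2 * (2 ^ (2 ^ k)) ^ 3 ≤ 2 ^ (4 * 2 ^ k) := by
      rw [← pow_mul, ← pow_succ']
      apply Nat.pow_le_pow_right (by norm_num)
      have := Nat.one_le_two_pow (n := k)
      omega
    calc ((2 * (2 ^ (2 ^ k)) ^ 3 : ℕ) : ℝ) ≤ ((2 ^ (4 * 2 ^ k) : ℕ) : ℝ) := by exact_mod_cast e2
      _ = (2 : ℝ) ^ (4 * 2 ^ k) := by push_cast; rfl
      _ ≤ (Real.exp 1) ^ (4 * 2 ^ k) := pow_le_pow_left₀ (by norm_num) e1 _
      _ = Real.exp (4 * 2 ^ k) := by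
          rw [← Real.exp_nat_mul]
          congr 1
          push_cast
          ring
  have h8 : ((2 * (2 ^ (2 ^ k)) ^ 3 : ℕ) : ℝ) ≤ (ballF G o (C1 * 2 ^ (α * k))).card :=
    h7.trans ((Real.exp_le_exp.2 h6).trans h5)
  exact_mod_cast h8

/-- **No jump at `p_c`.** -/
theorem no_jump [Infinite V] (hG : G.Connected) {R : Finset V}
    (hR : ∀ x : V, ∃ g : G ≃g G, g x ∈ R) (hAm : IsAmenable G) (hpc : 0 < pc G)
    (hpc1 : pc G < 1) {α C2 : ℕ}
    (hvol : ∀ (k : ℕ) (x : V), 2 * (2 ^ (2 ^ k)) ^ 3 ≤ (ballF G x (C2 * 2 ^ (α * k))).card)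
    {θ : ℝ} (hθ : 0 < θ) (hθn : ∀ n x, θ ≤ phiB G n x (pc G)) : False := by
  obtain ⟨d, hd1, hd⟩ := exists_degree_bound hR
  obtain ⟨C', hC', hstep⟩ := step hG hR hAm hd1 hd
  set η0 : ℝ := (1 / 2) ^ (8 * (α + 3) + 1) with hη0
  have hη0pos : 0 < η0 := by positivity
  have h2η : 2 * η0 = (1 / 2) ^ (8 * (α + 3)) := by rw [hη0, pow_succ]; ring
  have h2η1 : 2 * η0 < 1 := by
    rw [h2η]
    apply pow_lt_one₀ (by norm_num) (by norm_num)
    omega
  obtain ⟨s0, L, hs0, hbase⟩ := base_miss hG hR hpc hpc1 hθ hθn hη0pos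
  set q : ℝ := max 1 (2 / pc G) with hq
  have hq1 : 1 ≤ q := le_max_left _ _
  have hq2 : 2 / pc G ≤ q := le_max_right _ _
  obtain ⟨β, hβ, C4, hC4, herr⟩ := params_err s0 d α C2 (q := q) (p0 := pc G / 2) hq1
    (by positivity)
  obtain ⟨K0, hK0⟩ := params_M s0 d β
  -- the first scale
  obtain ⟨K1, hK1⟩ : ∃ K1 : ℕ, ∀ k, K1 ≤ k → s0 * (C' * C4) * (1 / 2 : ℝ) ^ k ≤ η0 / 2 := by
    have hlim : Tendsto (fun k : ℕ => s0 * (C' * C4) * (1 / 2 : ℝ) ^ k) atTop
        (𝓝 (s0 * (C' * C4) * 0)) :=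
      (tendsto_pow_atTop_nhds_zero_of_lt_one (by norm_num) (by norm_num)).const_mul _
    rw [mul_zero] at hlim
    obtain ⟨K1, hK1⟩ := Filter.eventually_atTop.1
      (hlim.eventually (gt_mem_nhds (show (0 : ℝ) < η0 / 2 by positivity)))
    exact ⟨K1, fun k hk => (hK1 k hk).le⟩
  set k0 := max (max K0 K1) (max L (s0 + 1)) with hk0
  have hk0K : K0 ≤ k0 := (le_max_left _ _).trans (le_max_left _ _)
  have hk0K1 : K1 ≤ k0 := (le_max_right _ _).trans (le_max_left _ _)
  have hk0L : L ≤ k0 := (le_max_left _ _).trans (le_max_right _ _)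
  have hk0s : s0 + 1 ≤ k0 := (le_max_right _ _).trans (le_max_right _ _)
  have hLn : L ≤ 2 ^ (2 ^ k0) := by
    have e1 := Nat.lt_two_pow_self (n := k0)
    have e2 := Nat.lt_two_pow_self (n := 2 ^ k0)
    omega
  obtain ⟨p, hp1, hp2, hmiss⟩ := hbase (2 ^ (2 ^ k0)) hLn
  have h0 : 0 < p := by linarith
  have h1 : p ≤ 1 := by linarith
  have hpq : 1 - p ≤ q * p := by
    have e1 : (1 : ℝ) ≤ q * p := by
      calc (1 : ℝ) = 2 / pc G * (pc G / 2) := by field_simp
        _ ≤ q * p := mul_le_mul hq2 hp1 (by positivity) (by positivity)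
    linarith
  have hind : ∀ m : ℕ, Miss G p (2 ^ (2 ^ (k0 + m))) s0 (η0 + η0 * (1 - (1 / 2) ^ m)) := by
    intro m
    induction m with
    | zero =>
      have : η0 + η0 * (1 - (1 / 2) ^ 0) = η0 := by simp
      rw [this, add_zero]
      exact hmiss
    | succ m ih =>
      set k := k0 + m with hk
      have hhalf0 : (0 : ℝ) < (1 / 2) ^ m := by positivity
      have hle : η0 + η0 * (1 - (1 / 2) ^ m) ≤ 2 * η0 := by nlinarith
      have hm2 : Miss G p (2 ^ (2 ^ k)) s0 (2 * η0) := ih.mono hle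
      have hB0 : s0 + k / 8 ≤ 2 ^ (β * k) := by
        have e1 := Nat.lt_two_pow_self (n := k)
        have e2 : 2 ^ (2 * k) ≤ 2 ^ (β * k) :=
          Nat.pow_le_pow_right (by norm_num) (Nat.mul_le_mul_right _ (by omega))
        have e3 : 2 ^ (2 * k) = 2 ^ k * 2 ^ k := by rw [two_mul, pow_add]
        have e4 : 2 ≤ 2 ^ k := by omega
        have e5 : 2 * 2 ^ k ≤ 2 ^ k * 2 ^ k := Nat.mul_le_mul_right _ e4
        omega
      have hB2 : 2 ≤ 2 ^ (β * k) := by
        have e1 : 2 ^ 1 ≤ 2 ^ (β * k) := by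
          apply Nat.pow_le_pow_right (by norm_num)
          have : 3 * 1 ≤ β * k := Nat.mul_le_mul hβ (by omega)
          omega
        omega
      have hu : ∀ x, phiB G (2 ^ (2 ^ k)) x p - phiB G ((2 ^ (2 ^ k)) ^ 2) x p ≤
          C' * C4 * (1 / 2) ^ k := by
        intro x
        have e1 := hstep p q (2 * η0) (2 ^ (2 ^ k))
          ((2 ^ (β * k)) ^ (8 * 9 ^ (2 * (s0 + k / 8)))) (s0 + k / 8) (2 ^ (β * k))
          (C2 * 2 ^ (α * k)) s0 h0 h1 hq1 hpq (by positivity) hm2 (hK0 k (by omega)) (by omega)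
          hB2 hB0 le_rfl (hvol k) x
        have e2 := herr k p (2 * η0) hp1 (by positivity) h2η.le
        exact e1.trans ((mul_le_mul_of_nonneg_left e2 hC'.le).trans (le_of_eq (by ring)))
      have h5 := hm2
      have h3 := ih.next hG h0.le h1 Nat.one_le_two_pow hu
      have e3 : (2 ^ (2 ^ k)) ^ 2 = 2 ^ (2 ^ (k0 + (m + 1))) := by
        rw [← pow_mul, ← add_assoc, ← hk, pow_succ 2 k]
      rw [e3] at h3
      apply h3.mono
      have h6 := hK1 k0 hk0K1
      have e4 : s0 * (C' * C4 * (1 / 2 : ℝ) ^ k) =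
          (s0 * (C' * C4) * (1 / 2 : ℝ) ^ k0) * (1 / 2) ^ m := by
        rw [hk, pow_add]; ring
      rw [e4, pow_succ]
      have h7 := mul_le_mul_of_nonneg_right h6 hhalf0.le
      linarith
  apply tail_contra hG h0.le h1 hp2 h2η1 (s0 := s0)
  intro K
  refine ⟨2 ^ (2 ^ (k0 + K)), ?_, ?_⟩
  · have e1 := Nat.lt_two_pow_self (n := k0 + K)
    have e2 := Nat.lt_two_pow_self (n := 2 ^ (k0 + K))
    omega
  · apply (hind K).mono
    have : (0 : ℝ) < (1 / 2) ^ K := by positivity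
    nlinarith

end

open MeasureTheory ProbabilityTheory SimpleGraph unitInterval

section
variable {V : Type*} [DecidableEq V]

/-- The growth condition implies that the graph is infinite. -/
lemma infinite_of_growth {G : SimpleGraph V} [G.LocallyFinite] (hG : G.Connected)
    (hQ : IsQuasiTransitive G) {o : V} {c a : ℝ} (hc : 0 < c) (ha : 0 < a)
    (hgrow : ∀ r : ℕ, Real.exp (c * (r : ℝ) ^ a) ≤ (ballF G o r).card) : Infinite V := by
  obtain ⟨R, hR⟩ := hQ
  have hR' : ∀ x : V, ∃ g : G ≃g G, g x ∈ R := by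
    intro x
    obtain ⟨y, hy, φ, rfl⟩ := hR x
    exact ⟨φ.symm, by simpa using hy⟩
  obtain ⟨α, C2, hvol⟩ := growth hG hR' hc ha hgrow
  rw [← not_finite_iff_infinite]
  intro hfin
  have := Fintype.ofFinite V
  have h1 := hvol (Fintype.card V) o
  have h2 := Finset.card_le_univ (ballF G o (C2 * 2 ^ (α * Fintype.card V)))
  have e1 := Nat.lt_two_pow_self (n := Fintype.card V)
  have e2 := Nat.lt_two_pow_self (n := 2 ^ Fintype.card V)
  have e3 : 2 ^ 2 ^ Fintype.card V ≤ (2 ^ 2 ^ Fintype.card V) ^ 3 :=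
    Nat.le_self_pow (by norm_num) _
  omega

/-- The amenable case. -/
theorem amenable_case {G : SimpleGraph V} [G.LocallyFinite] (hG : G.Connected)
    (hQ : IsQuasiTransitive G) (hAm : IsAmenable G) (hpc1 : pc G < 1) (o : V) {c a : ℝ}
    (hc : 0 < c) (ha : 0 < a)
    (hgrow : ∀ r : ℕ, Real.exp (c * (r : ℝ) ^ a) ≤ (ballF G o r).card) (p : I)
    (hp : (p : ℝ) = pc G) :
    setBernoulli G.edgeSet p (hasInfiniteCluster V) = 0 := by
  have hpc0 : 0 ≤ pc G := pc_nonneg G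
  rcases hpc0.eq_or_lt with hz | hpos
  · exact no_infinite_zero G hG p (by rw [hp, ← hz])
  obtain ⟨R, hR⟩ := hQ
  have hR' : ∀ x : V, ∃ g : G ≃g G, g x ∈ R := by
    intro x
    obtain ⟨y, hy, φ, rfl⟩ := hR x
    exact ⟨φ.symm, by simpa using hy⟩
  obtain ⟨α, C2, hvol⟩ := growth hG hR' hc ha hgrow
  have hinf : Infinite V := infinite_of_growth hG ⟨R, hR⟩ hc ha hgrow
  apply no_infinite_of_phiB G hG p
  intro x
  by_contra hcon
  push Not at hcon
  obtain ⟨θ, hθ, hθn⟩ := hcon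
  have hp0 : 0 ≤ (p : ℝ) := p.2.1
  have hp1 : (p : ℝ) ≤ 1 := p.2.2
  obtain ⟨c', hc', _, hSF⟩ := SF_le_phi (G := G) hG hR hpos
  apply no_jump hG hR' hAm hpos hpc1 hvol (θ := c' * θ) (by positivity)
  intro n y
  have h1 := hSF (pc G) le_rfl hpc1.le n y
  rw [phi_eq_phiB hG hpc0 hpc1.le] at h1
  refine le_trans ?_ h1
  apply mul_le_mul_of_nonneg_left _ hc'.le
  have h2 := phi_le_SF (G := G) hR hpc0 hpc1.le n x
  rw [phi_eq_phiB hG hpc0 hpc1.le] at h2
  refine le_trans ?_ h2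
  have h3 := hθn n
  rw [hp] at h3
  exact h3

end

end Vale.Agent.P151.R2.H279
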