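import Vale.Agent.P151.R2.H279.Defs

/-!
# Isoperimetry on amenable quasi-transitive graphs, from the growth of balls
-/

set_option autoImplicit false
set_option linter.unusedSectionVars false

open Finset SimpleGraph

namespace Vale.Agent.P151.R2.H279

open Vale.Agent.P151

variable {V : Type*} [DecidableEq V] {G : SimpleGraph V} [G.LocallyFinite]

/-! ### Cobounded action -/

lemma cobounded (hG : G.Connected) {R : Finset V} (hR : ∀ x : V, ∃ g : G ≃g G, g x ∈ R) :
    ∃ D : ℕ, ∀ u w : V, ∃ g : G ≃g G, G.dist (g u) w ≤ D := by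
  refine ⟨∑ a ∈ R, ∑ b ∈ R, G.dist a b, fun u w => ?_⟩
  obtain ⟨g, hg⟩ := hR u
  obtain ⟨k, hk⟩ := hR w
  refine ⟨g.trans k.symm, ?_⟩
  have h1 : G.dist ((g.trans k.symm) u) w = G.dist (g u) (k w) := by
    rw [← dist_aut hG k]
    simp
  rw [h1]
  calc G.dist (g u) (k w) ≤ ∑ b ∈ R, G.dist (g u) b :=
        Finset.single_le_sum (f := fun b => G.dist (g u) b) (fun _ _ => Nat.zero_le _) hk
    _ ≤ ∑ a ∈ R, ∑ b ∈ R, G.dist a b :=
        Finset.single_le_sum (f := fun a => ∑ b ∈ R, G.dist a b) (fun _ _ => Nat.zero_le _) hg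

lemma reps' {R : Finset V} (hR : ∀ x : V, ∃ g : G ≃g G, g x ∈ R) :
    ∀ x : V, ∃ y ∈ R, ∃ φ : G ≃g G, φ y = x := by
  intro x
  obtain ⟨g, hg⟩ := hR x
  exact ⟨g x, hg, g.symm, by simp⟩

/-! ### Foelner sets -/

lemma exists_bd (hG : G.Connected) {W : Finset V} {w z : V} (q : G.Walk w z) (hw : w ∈ W)
    (hz : z ∉ W) : ∃ b ∈ outerBoundary G W, G.dist w b ≤ q.length := by
  induction q with
  | nil => exact absurd hw hz
  | @cons w u z hadj q ih =>
    have h1 : G.dist w u = 1 := SimpleGraph.dist_eq_one_iff_adj.2 hadj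
    rw [SimpleGraph.Walk.length_cons]
    by_cases hu : u ∈ W
    · obtain ⟨b, hb, hbz⟩ := ih hu hz
      refine ⟨b, hb, ?_⟩
      have := hG.dist_triangle (u := w) (v := u) (w := b)
      omega
    · exact ⟨u, ⟨hu, w, hw, hadj⟩, by omega⟩

open Classical in
/-- Foelner sets: most points are deep inside. -/
lemma foelner_deep (hG : G.Connected) {R : Finset V} (hR : ∀ x : V, ∃ g : G ≃g G, g x ∈ R)
    (hAm : IsAmenable G) (r : ℕ) {δ : ℝ} (hδ : 0 < δ) :
    ∃ F : Finset V, F.Nonempty ∧
      ((F.filter fun v => ¬ ballF G v r ⊆ F).card : ℝ) ≤ δ * F.card := by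
  obtain ⟨b, hb1, hb⟩ := ball_bound hG (reps' hR) r
  have hb' : (0 : ℝ) < b := by exact_mod_cast hb1
  obtain ⟨W, hW, hWb⟩ := hAm (δ / b) (by positivity)
  refine ⟨W, hW, ?_⟩
  have hfin := outerBoundary_finite (G := G) W
  have hsub : (W.filter fun v => ¬ ballF G v r ⊆ W) ⊆
      hfin.toFinset.biUnion (fun c => ballF G c r) := by
    intro v hv
    rw [Finset.mem_filter, Finset.not_subset] at hv
    obtain ⟨hvW, z, hz, hzW⟩ := hv
    rw [mem_ballF_iff hG] at hz
    obtain ⟨q, hq⟩ := hG.exists_walk_length_eq_dist v z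
    obtain ⟨c, hc, hvc⟩ := exists_bd hG q hvW hzW
    rw [Finset.mem_biUnion]
    refine ⟨c, (Set.Finite.mem_toFinset hfin).2 hc, ?_⟩
    rw [mem_ballF_iff hG]
    rw [SimpleGraph.dist_comm] at hz
    omega
  have h1 : (W.filter fun v => ¬ ballF G v r ⊆ W).card ≤ hfin.toFinset.card * b :=
    (Finset.card_le_card hsub).trans (Finset.card_biUnion_le_card_mul _ _ _ fun c _ => hb c)
  have h2 : ((W.filter fun v => ¬ ballF G v r ⊆ W).card : ℝ) ≤ (outerBoundary G W).ncard * b := by
    rw [Set.ncard_eq_toFinset_card _ hfin]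
    exact_mod_cast h1
  calc ((W.filter fun v => ¬ ballF G v r ⊆ W).card : ℝ) ≤ (outerBoundary G W).ncard * b := h2
    _ ≤ (δ / b * W.card) * b := mul_le_mul_of_nonneg_right hWb hb'.le
    _ = δ * W.card := by field_simp

open Classical in
/-- Points of a given orbit deep inside `F`. -/
lemma orbit_count (hG : G.Connected) {R : Finset V} (hR : ∀ x : V, ∃ g : G ≃g G, g x ∈ R) :
    ∃ c : ℝ, 0 < c ∧ ∃ D : ℕ, ∀ (a : V) (r : ℕ) (F : Finset V),
      ((F.filter fun v => ¬ ballF G v (D + r) ⊆ F).card : ℝ) ≤ 1 / 2 * F.card →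
      c * F.card ≤ ((F.filter fun v => (∃ g : G ≃g G, g a = v) ∧ ballF G v r ⊆ F).card : ℝ) := by
  obtain ⟨D, hD⟩ := cobounded hG hR
  obtain ⟨b, hb1, hb⟩ := ball_bound hG (reps' hR) D
  have hb' : (0 : ℝ) < b := by exact_mod_cast hb1
  refine ⟨1 / (2 * b), by positivity, D, ?_⟩
  intro a r F hF
  set P := F.filter fun v => (∃ g : G ≃g G, g a = v) ∧ ballF G v r ⊆ F with hP
  have hsub : (F.filter fun v => ballF G v (D + r) ⊆ F) ⊆ P.biUnion (fun v => ballF G v D) := by
    intro w hw
    rw [Finset.mem_filter] at hw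
    obtain ⟨g, hg⟩ := hD a w
    rw [Finset.mem_biUnion]
    refine ⟨g a, ?_, ?_⟩
    · rw [hP, Finset.mem_filter]
      refine ⟨hw.2 ?_, ⟨g, rfl⟩, ?_⟩
      · rw [mem_ballF_iff hG]; omega
      · intro z hz
        apply hw.2
        rw [mem_ballF_iff hG] at hz ⊢
        have := hG.dist_triangle (u := z) (v := g a) (w := w)
        omega
    · rw [mem_ballF_iff hG, SimpleGraph.dist_comm]; exact hg
  have h1 : (F.filter fun v => ballF G v (D + r) ⊆ F).card ≤ P.card * b :=
    (Finset.card_le_card hsub).trans (Finset.card_biUnion_le_card_mul _ _ _ fun c _ => hb c)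
  have h2 := Finset.card_filter_add_card_filter_not (s := F) (fun v => ballF G v (D + r) ⊆ F)
  have h1' : ((F.filter fun v => ballF G v (D + r) ⊆ F).card : ℝ) ≤ P.card * b := by
    exact_mod_cast h1
  have h2' : ((F.filter fun v => ballF G v (D + r) ⊆ F).card : ℝ) +
      ((F.filter fun v => ¬ ballF G v (D + r) ⊆ F).card : ℝ) = F.card := by exact_mod_cast h2
  rw [div_mul_eq_mul_div, one_mul, div_le_iff₀ (by positivity)]
  nlinarith

/-! ### The mass transport inequality -/

open Classical in
/-- Mass transport: an invariant function of `(x, a, b)` with bounded outflow has bounded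
inflow. -/
theorem transport (hG : G.Connected) {R : Finset V} (hR : ∀ x : V, ∃ g : G ≃g G, g x ∈ R)
    (hAm : IsAmenable G) : ∃ C : ℝ, 0 < C ∧ ∀ (m : V → V → V → ℝ) (r : ℕ) (T : ℝ),
      (∀ x a b, 0 ≤ m x a b) → (∀ (g : G ≃g G) x a b, m (g x) (g a) (g b) = m x a b) →
      (∀ x, ∑ a ∈ ballF G x r, ∑ b ∈ G.neighborFinset a, m x a b ≤ T) →
      ∀ a b, G.Adj a b → ∑ x ∈ ballF G a r, m x a b ≤ C * T := by
  obtain ⟨c, hc, D, hD⟩ := orbit_count hG hR
  refine ⟨1 / c, by positivity, ?_⟩
  intro m r T hm0 hinv hT a b hab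
  obtain ⟨F, hFne, hF⟩ := foelner_deep hG hR hAm (D + r) (δ := 1 / 2) (by norm_num)
  have hcount := hD a r F hF
  set P := F.filter fun v => (∃ g : G ≃g G, g a = v) ∧ ballF G v r ⊆ F with hP
  have hFpos : (0 : ℝ) < F.card := by exact_mod_cast Finset.card_pos.2 hFne
  have hch : ∀ v : V, ∃ g : G ≃g G, v ∈ P → g a = v := by
    intro v
    by_cases hv : v ∈ P
    · obtain ⟨g, hg⟩ := (Finset.mem_filter.1 hv).2.1
      exact ⟨g, fun _ => hg⟩
    · exact ⟨SimpleGraph.Iso.refl, fun h => absurd h hv⟩
  choose g hg using hch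
  have hball : ∀ (k : G ≃g G) (v : V), ballF G (k v) r = (ballF G v r).image k := by
    intro k v
    ext z
    rw [Finset.mem_image, mem_ballF_iff hG]
    constructor
    · intro h
      refine ⟨k.symm z, ?_, by simp⟩
      rw [mem_ballF_iff hG, ← dist_aut hG k]
      simpa using h
    · rintro ⟨w, hw, rfl⟩
      rw [mem_ballF_iff hG] at hw
      rw [dist_aut hG]
      exact hw
  have h1 : ∑ v ∈ P, ∑ x ∈ ballF G v r, m x v (g v b) = P.card * ∑ x ∈ ballF G a r, m x a b := by
    rw [← nsmul_eq_mul, ← Finset.sum_const]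
    apply Finset.sum_congr rfl
    intro v hv
    have hgv := hg v hv
    conv_lhs => rw [← hgv]
    rw [hball, Finset.sum_image (fun x _ y _ h => (g v).injective h)]
    apply Finset.sum_congr rfl
    intro x _
    rw [hgv, ← hinv (g v) x a b, hgv]
  have h2 : ∑ v ∈ P, ∑ x ∈ ballF G v r, m x v (g v b) ≤ F.card * T := by
    calc ∑ v ∈ P, ∑ x ∈ ballF G v r, m x v (g v b)
        ≤ ∑ v ∈ P, ∑ x ∈ F.filter (fun x => x ∈ ballF G v r),
            ∑ b' ∈ G.neighborFinset v, m x v b' := by
          apply Finset.sum_le_sum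
          intro v hv
          have hv' := (Finset.mem_filter.1 hv).2.2
          have e : F.filter (fun x => x ∈ ballF G v r) = ballF G v r := by
            ext x
            rw [Finset.mem_filter]
            exact ⟨fun h => h.2, fun h => ⟨hv' h, h⟩⟩
          rw [e]
          apply Finset.sum_le_sum
          intro x _
          apply Finset.single_le_sum (f := fun b' => m x v b') (fun b' _ => hm0 x v b')
          rw [SimpleGraph.mem_neighborFinset]
          have h3 := hg v hv
          conv_lhs => rw [← h3]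
          exact (g v).map_rel_iff.2 hab
      _ = ∑ v ∈ P, ∑ x ∈ F, if x ∈ ballF G v r then ∑ b' ∈ G.neighborFinset v, m x v b' else 0 := by
          apply Finset.sum_congr rfl
          intro v _
          rw [Finset.sum_filter]
      _ = ∑ x ∈ F, ∑ v ∈ P, if x ∈ ballF G v r then ∑ b' ∈ G.neighborFinset v, m x v b' else 0 :=
          Finset.sum_comm
      _ ≤ ∑ x ∈ F, T := by
          apply Finset.sum_le_sum
          intro x _
          refine le_trans ?_ (hT x)
          rw [← Finset.sum_filter]
          apply Finset.sum_le_sum_of_subset_of_nonneg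
          · intro v hv
            have := (Finset.mem_filter.1 hv).2
            rw [mem_ballF_iff hG] at this ⊢
            rw [SimpleGraph.dist_comm]; exact this
          · intro v _ _
            exact Finset.sum_nonneg fun b' _ => hm0 _ _ _
      _ = F.card * T := by rw [Finset.sum_const, nsmul_eq_mul]
  rw [h1] at h2
  set I := ∑ x ∈ ballF G a r, m x a b with hI
  have hI0 : 0 ≤ I := Finset.sum_nonneg fun x _ => hm0 _ _ _
  have h3 : c * F.card * I ≤ F.card * T := (mul_le_mul_of_nonneg_right hcount hI0).trans h2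
  rw [div_mul_eq_mul_div, one_mul, le_div_iff₀ hc]
  have h4 : F.card * (I * c) ≤ F.card * T := by linarith
  exact le_of_mul_le_mul_left h4 hFpos

/-! ### The flow -/

/-- Number of neighbours of `y` closer to `x`. -/
noncomputable def np (G : SimpleGraph V) [G.LocallyFinite] (x y : V) : ℕ :=
  ((G.neighborFinset y).filter fun z => G.dist x z + 1 = G.dist x y).card

/-- The mass collected at `y` in `k` more steps. -/
noncomputable def mass (G : SimpleGraph V) [G.LocallyFinite] (x : V) : ℕ → V → ℝ
  | 0, _ => 1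
  | k + 1, y => 1 + ∑ z ∈ (G.neighborFinset y).filter (fun z => G.dist x z = G.dist x y + 1),
      mass G x k z / np G x z

/-- Spheres. -/
noncomputable def sph (G : SimpleGraph V) [G.LocallyFinite] (x : V) (i : ℕ) : Finset V :=
  (ballF G x i).filter fun y => G.dist x y = i

lemma mem_sph (hG : G.Connected) {x y : V} {i : ℕ} : y ∈ sph G x i ↔ G.dist x y = i := by
  unfold sph
  rw [Finset.mem_filter, mem_ballF_iff hG]
  have hc := SimpleGraph.dist_comm (G := G) (u := x) (v := y)
  constructor
  · exact fun h => h.2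
  · exact fun h => ⟨by omega, h⟩

lemma mass_nonneg (x : V) (k : ℕ) (y : V) : 0 ≤ mass G x k y := by
  induction k generalizing y with
  | zero => simp [mass]
  | succ k ih =>
    simp only [mass]
    have : 0 ≤ ∑ z ∈ (G.neighborFinset y).filter (fun z => G.dist x z = G.dist x y + 1),
        mass G x k z / np G x z := Finset.sum_nonneg fun z _ => div_nonneg (ih z) (Nat.cast_nonneg _)
    linarith

lemma np_pos (hG : G.Connected) {x y : V} (h : 0 < G.dist x y) : 0 < np G x y := by
  unfold np
  obtain ⟨z, h1, h2⟩ := exists_mid hG (x := x) (z := y) (a := G.dist x y - 1) (b := 1) (by omega)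
  apply Finset.card_pos.2
  refine ⟨z, ?_⟩
  have h3 := hG.dist_triangle (u := x) (v := z) (w := y)
  rw [Finset.mem_filter, SimpleGraph.mem_neighborFinset]
  refine ⟨?_, by omega⟩
  rw [← SimpleGraph.dist_eq_one_iff_adj, SimpleGraph.dist_comm]
  omega

/-- Summing over children or over parents. -/
lemma swap (hG : G.Connected) (x : V) (i : ℕ) (f : V → V → ℝ) :
    ∑ y ∈ sph G x i, ∑ z ∈ (G.neighborFinset y).filter (fun z => G.dist x z = G.dist x y + 1),
      f y z = ∑ z ∈ sph G x (i + 1),
        ∑ y ∈ (G.neighborFinset z).filter (fun y => G.dist x y + 1 = G.dist x z), f y z := by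
  apply Finset.sum_comm'
  intro y z
  rw [mem_sph hG, mem_sph hG, Finset.mem_filter, Finset.mem_filter, SimpleGraph.mem_neighborFinset,
    SimpleGraph.mem_neighborFinset, G.adj_comm y z]
  constructor
  · rintro ⟨h1, h2, h3⟩
    exact ⟨⟨h2, by omega⟩, by omega⟩
  · rintro ⟨⟨h1, h2⟩, h3⟩
    exact ⟨by omega, h1, by omega⟩

lemma swap_div (hG : G.Connected) (x : V) (i : ℕ) (f : V → ℝ) :
    ∑ y ∈ sph G x i, ∑ z ∈ (G.neighborFinset y).filter (fun z => G.dist x z = G.dist x y + 1),
      f z / np G x z = ∑ z ∈ sph G x (i + 1), f z := by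
  rw [swap hG x i (fun _ z => f z / np G x z)]
  apply Finset.sum_congr rfl
  intro z hz
  rw [mem_sph hG] at hz
  rw [Finset.sum_const, nsmul_eq_mul]
  have h1 := np_pos hG (x := x) (y := z) (by omega)
  have h2 : (0 : ℝ) < np G x z := by exact_mod_cast h1
  change (np G x z : ℝ) * _ = _
  field_simp

lemma card_ge (hG : G.Connected) (x : V) (i k : ℕ) :
    ((ballF G x (i + (k + 1))).filter fun y => i ≤ G.dist x y).card =
      (sph G x i).card + ((ballF G x (i + 1 + k)).filter fun y => i + 1 ≤ G.dist x y).card := by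
  rw [← Finset.card_union_of_disjoint]
  · congr 1
    ext y
    rw [Finset.mem_union, Finset.mem_filter, Finset.mem_filter, mem_sph hG, mem_ballF_iff hG,
      mem_ballF_iff hG, SimpleGraph.dist_comm (u := y)]
    omega
  · rw [Finset.disjoint_left]
    intro y h1 h2
    rw [mem_sph hG] at h1
    rw [Finset.mem_filter] at h2
    omega

/-- The total mass on a sphere. -/
lemma sum_mass (hG : G.Connected) (x : V) (i k : ℕ) :
    ∑ y ∈ sph G x i, mass G x k y =
      (((ballF G x (i + k)).filter fun y => i ≤ G.dist x y).card : ℝ) := by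
  induction k generalizing i with
  | zero =>
    simp only [mass, Finset.sum_const, nsmul_eq_mul, mul_one, add_zero]
    congr 2
    ext y
    rw [mem_sph hG, Finset.mem_filter, mem_ballF_iff hG, SimpleGraph.dist_comm (u := y)]
    omega
  | succ k ih =>
    simp only [mass]
    rw [Finset.sum_add_distrib, swap_div hG, ih (i + 1), card_ge hG]
    simp

/-- The flow across `(y, z)`. -/
noncomputable def fl (G : SimpleGraph V) [G.LocallyFinite] (r : ℕ) (x y z : V) : ℝ :=
  if G.dist x z = G.dist x y + 1 ∧ G.dist x y < r then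
    mass G x (r - 1 - G.dist x y) z / np G x z else 0

lemma fl_nonneg (r : ℕ) (x y z : V) : 0 ≤ fl G r x y z := by
  unfold fl
  split_ifs
  · exact div_nonneg (mass_nonneg _ _ _) (Nat.cast_nonneg _)
  · exact le_rfl

lemma nbr_image (g : G ≃g G) (y : V) : G.neighborFinset (g y) = (G.neighborFinset y).image g := by
  ext z
  rw [SimpleGraph.mem_neighborFinset, Finset.mem_image]
  constructor
  · intro h
    refine ⟨g.symm z, ?_, by simp⟩
    rw [SimpleGraph.mem_neighborFinset]
    have : G.Adj (g y) (g (g.symm z)) := by simpa using h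
    exact g.map_rel_iff.1 this
  · rintro ⟨w, hw, rfl⟩
    rw [SimpleGraph.mem_neighborFinset] at hw
    exact g.map_rel_iff.2 hw

lemma np_aut (hG : G.Connected) (g : G ≃g G) (x y : V) : np G (g x) (g y) = np G x y := by
  unfold np
  rw [nbr_image, Finset.filter_image, Finset.card_image_of_injective _ g.injective]
  simp only [dist_aut hG]

lemma mass_aut (hG : G.Connected) (g : G ≃g G) (x : V) (k : ℕ) (y : V) :
    mass G (g x) k (g y) = mass G x k y := by
  induction k generalizing y with
  | zero => simp [mass]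
  | succ k ih =>
    simp only [mass]
    rw [nbr_image, Finset.filter_image, Finset.sum_image (fun a _ b _ h => g.injective h)]
    simp only [dist_aut hG, ih, np_aut hG]

lemma fl_aut (hG : G.Connected) (r : ℕ) (g : G ≃g G) (x y z : V) :
    fl G r (g x) (g y) (g z) = fl G r x y z := by
  unfold fl
  simp only [dist_aut hG, mass_aut hG, np_aut hG]

/-- The flow summed by levels. -/
lemma sum_fl (hG : G.Connected) (r : ℕ) (x : V) (w : V → V → ℝ) :
    ∑ y ∈ ballF G x r, ∑ z ∈ G.neighborFinset y, fl G r x y z * w y z =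
      ∑ i ∈ Finset.range r, ∑ y ∈ sph G x i,
        ∑ z ∈ (G.neighborFinset y).filter (fun z => G.dist x z = G.dist x y + 1),
          mass G x (r - 1 - i) z / np G x z * w y z := by
  have h1 : ∀ y, ∑ z ∈ G.neighborFinset y, fl G r x y z * w y z =
      if G.dist x y < r then
        ∑ z ∈ (G.neighborFinset y).filter (fun z => G.dist x z = G.dist x y + 1),
          mass G x (r - 1 - G.dist x y) z / np G x z * w y z else 0 := by
    intro y
    split_ifs with h
    · rw [Finset.sum_filter]
      apply Finset.sum_congr rfl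
      intro z _
      unfold fl
      by_cases hz : G.dist x z = G.dist x y + 1
      · rw [if_pos ⟨hz, h⟩, if_pos hz]
      · rw [if_neg (fun h' => hz h'.1), if_neg hz, zero_mul]
    · apply Finset.sum_eq_zero
      intro z _
      unfold fl
      rw [if_neg (fun h' => h h'.2), zero_mul]
  rw [Finset.sum_congr rfl fun y _ => h1 y, ← Finset.sum_filter]
  have h2 : (ballF G x r).filter (fun y => G.dist x y < r) =
      (Finset.range r).biUnion (fun i => sph G x i) := by
    ext y
    rw [Finset.mem_filter, Finset.mem_biUnion, mem_ballF_iff hG, SimpleGraph.dist_comm]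
    constructor
    · rintro ⟨_, h⟩
      exact ⟨_, Finset.mem_range.2 h, (mem_sph hG).2 rfl⟩
    · rintro ⟨i, hi, hy⟩
      rw [mem_sph hG] at hy
      rw [Finset.mem_range] at hi
      omega
  rw [h2, Finset.sum_biUnion]
  · apply Finset.sum_congr rfl
    intro i _
    apply Finset.sum_congr rfl
    intro y hy
    rw [mem_sph hG] at hy
    rw [hy]
  · intro i _ j _ hij
    rw [Function.onFun, Finset.disjoint_left]
    intro y h3 h4
    rw [mem_sph hG] at h3 h4
    exact hij (h3.symm.trans h4)

/-- The total flow. -/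
lemma sum_fl_le (hG : G.Connected) (r : ℕ) (x : V) :
    ∑ y ∈ ballF G x r, ∑ z ∈ G.neighborFinset y, fl G r x y z ≤ r * (ballF G x r).card := by
  have h1 := sum_fl hG r x (fun _ _ => 1)
  simp only [mul_one] at h1
  rw [h1]
  calc ∑ i ∈ Finset.range r, ∑ y ∈ sph G x i,
        ∑ z ∈ (G.neighborFinset y).filter (fun z => G.dist x z = G.dist x y + 1),
          mass G x (r - 1 - i) z / np G x z
      ≤ ∑ i ∈ Finset.range r, ((ballF G x r).card : ℝ) := by
        apply Finset.sum_le_sum
        intro i hi
        rw [Finset.mem_range] at hi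
        rw [swap_div hG, sum_mass hG, show i + 1 + (r - 1 - i) = r by omega]
        exact_mod_cast Finset.card_filter_le _ _
    _ = r * (ballF G x r).card := by rw [Finset.sum_const, Finset.card_range, nsmul_eq_mul]

open Classical in
/-- The points of the ball outside `W` are charged to the flow through the boundary. -/
lemma outside_le (hG : G.Connected) (r : ℕ) {x : V} {W : Finset V} (hx : x ∈ W) :
    (((ballF G x r).filter fun z => z ∉ W).card : ℝ) ≤
      ∑ y ∈ ballF G x r, ∑ z ∈ G.neighborFinset y,
        fl G r x y z * (if y ∈ W ∧ z ∉ W then 1 else 0) := by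
  rw [sum_fl hG r x]
  set φ : V → ℝ := fun y => if y ∈ W then 0 else 1 with hφ
  have hφ0 : ∀ y, 0 ≤ φ y := fun y => by simp only [hφ]; split_ifs <;> norm_num
  set BD : ℕ → ℕ → ℝ := fun i k => ∑ y ∈ sph G x i,
        ∑ z ∈ (G.neighborFinset y).filter (fun z => G.dist x z = G.dist x y + 1),
          mass G x k z / np G x z * (if y ∈ W ∧ z ∉ W then 1 else 0) with hBD
  -- one step
  have step : ∀ i k, ∑ y ∈ sph G x (i + 1), mass G x k y * φ y + ∑ y ∈ sph G x i, φ y ≤
      ∑ y ∈ sph G x i, mass G x (k + 1) y * φ y + BD i k := by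
    intro i k
    have e1 : ∑ y ∈ sph G x (i + 1), mass G x k y * φ y = ∑ y ∈ sph G x i,
        ∑ z ∈ (G.neighborFinset y).filter (fun z => G.dist x z = G.dist x y + 1),
          mass G x k z * φ z / np G x z := (swap_div hG x i (fun z => mass G x k z * φ z)).symm
    rw [e1, ← Finset.sum_add_distrib]
    simp only [hBD]
    rw [← Finset.sum_add_distrib]
    apply Finset.sum_le_sum
    intro y _
    have e2 : mass G x (k + 1) y = 1 + ∑ z ∈ (G.neighborFinset y).filter
        (fun z => G.dist x z = G.dist x y + 1), mass G x k z / np G x z := rfl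
    rw [e2, add_mul, one_mul, Finset.sum_mul, add_comm, add_assoc, ← Finset.sum_add_distrib]
    apply add_le_add le_rfl
    apply Finset.sum_le_sum
    intro z _
    have h3 : 0 ≤ mass G x k z / np G x z := div_nonneg (mass_nonneg _ _ _) (Nat.cast_nonneg _)
    have h4 : φ z ≤ φ y + (if y ∈ W ∧ z ∉ W then 1 else 0) := by
      simp only [hφ]
      by_cases hy : y ∈ W <;> by_cases hz : z ∈ W <;> simp [hy, hz]
    calc mass G x k z * φ z / np G x z = mass G x k z / np G x z * φ z := by ring
      _ ≤ mass G x k z / np G x z * (φ y + (if y ∈ W ∧ z ∉ W then 1 else 0)) :=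
          mul_le_mul_of_nonneg_left h4 h3
      _ = _ := by ring
  -- telescoping
  have tel : ∀ k i, ∑ y ∈ (ballF G x (i + k)).filter (fun y => i ≤ G.dist x y), φ y ≤
      ∑ y ∈ sph G x i, mass G x k y * φ y + ∑ j ∈ Finset.range k, BD (i + j) (k - 1 - j) := by
    intro k
    induction k with
    | zero =>
      intro i
      have : (ballF G x (i + 0)).filter (fun y => i ≤ G.dist x y) = sph G x i := by
        ext y
        rw [mem_sph hG, Finset.mem_filter, mem_ballF_iff hG, SimpleGraph.dist_comm (u := y)]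
        omega
      rw [this]
      simp [mass]
    | succ k ih =>
      intro i
      have hsplit : (ballF G x (i + (k + 1))).filter (fun y => i ≤ G.dist x y) =
          sph G x i ∪ (ballF G x (i + 1 + k)).filter (fun y => i + 1 ≤ G.dist x y) := by
        ext y
        rw [Finset.mem_union, Finset.mem_filter, Finset.mem_filter, mem_sph hG, mem_ballF_iff hG,
          mem_ballF_iff hG, SimpleGraph.dist_comm (u := y)]
        omega
      have hdis : Disjoint (sph G x i)
          ((ballF G x (i + 1 + k)).filter (fun y => i + 1 ≤ G.dist x y)) := by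
        rw [Finset.disjoint_left]
        intro y h1 h2
        rw [mem_sph hG] at h1
        rw [Finset.mem_filter] at h2
        omega
      rw [hsplit, Finset.sum_union hdis, Finset.sum_range_succ']
      have h1 := ih (i + 1)
      have h2 := step i k
      have e3 : ∑ j ∈ Finset.range k, BD (i + (j + 1)) (k + 1 - 1 - (j + 1)) =
          ∑ j ∈ Finset.range k, BD (i + 1 + j) (k - 1 - j) := by
        apply Finset.sum_congr rfl
        intro j _
        congr 1
        · omega
        · omega
      rw [e3]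
      simp only [add_zero, Nat.sub_zero, Nat.add_sub_cancel]
      linarith
  have h1 := tel r 0
  rw [zero_add] at h1
  have h2 : ∑ y ∈ sph G x 0, mass G x r y * φ y = 0 := by
    apply Finset.sum_eq_zero
    intro y hy
    rw [mem_sph hG] at hy
    have : x = y := hG.dist_eq_zero_iff.1 hy
    subst this
    simp [hφ, hx]
  rw [h2, zero_add] at h1
  have h3 : (((ballF G x r).filter fun z => z ∉ W).card : ℝ) =
      ∑ y ∈ (ballF G x r).filter (fun y => 0 ≤ G.dist x y), φ y := by
    rw [Finset.filter_true_of_mem (fun y _ => Nat.zero_le _), Finset.card_filter]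
    push_cast
    apply Finset.sum_congr rfl
    intro y _
    simp only [hφ]
    by_cases hy : y ∈ W <;> simp [hy]
  rw [h3]
  refine h1.trans (le_of_eq ?_)
  apply Finset.sum_congr rfl
  intro j _
  simp only [hBD, zero_add]

/-- Balls of the same radius have comparable volumes. -/
lemma ball_compare (hG : G.Connected) {R : Finset V} (hR : ∀ x : V, ∃ g : G ≃g G, g x ∈ R) :
    ∃ b : ℕ, 1 ≤ b ∧ ∀ (x y : V) (r : ℕ), (ballF G x r).card ≤ b * (ballF G y r).card := by
  obtain ⟨D, hD⟩ := cobounded hG hR
  obtain ⟨b, hb1, hb⟩ := ball_bound hG (reps' hR) D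
  refine ⟨b, hb1, fun x y r => ?_⟩
  obtain ⟨g, hg⟩ := hD x y
  rw [← card_ballF_aut hG g x r]
  have hsub : ballF G (g x) r ⊆ (ballF G y r).biUnion (fun z => ballF G z D) := by
    intro z hz
    rw [mem_ballF_iff hG] at hz
    have h1 := hG.dist_triangle (u := y) (v := g x) (w := z)
    have h2 : G.dist y (g x) = G.dist (g x) y := SimpleGraph.dist_comm
    have h3 : G.dist (g x) z = G.dist z (g x) := SimpleGraph.dist_comm
    obtain ⟨w, hw1, hw2⟩ := exists_mid hG (x := y) (z := z) (a := r) (b := D) (by omega)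
    rw [Finset.mem_biUnion]
    refine ⟨w, ?_, ?_⟩
    · rw [mem_ballF_iff hG, SimpleGraph.dist_comm]; exact hw1
    · rw [mem_ballF_iff hG, SimpleGraph.dist_comm]; exact hw2
  rw [mul_comm]
  exact (Finset.card_le_card hsub).trans (Finset.card_biUnion_le_card_mul _ _ _ fun c _ => hb c)

open Classical in
/-- **Isoperimetric inequality.** -/
theorem isoperimetric (hG : G.Connected) {R : Finset V}
    (hR : ∀ x : V, ∃ g : G ≃g G, g x ∈ R) (hAm : IsAmenable G) :
    ∃ C : ℝ, 0 < C ∧ ∀ (W : Finset V) (r : ℕ), (∀ x, 2 * W.card ≤ (ballF G x r).card) →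
      (W.card : ℝ) ≤ C * r * ∑ w ∈ W, (((G.neighborFinset w).filter (fun z => z ∉ W)).card : ℝ) := by
  obtain ⟨C, hC, htr⟩ := transport hG hR hAm
  obtain ⟨b, hb1, hb⟩ := ball_compare hG hR
  have hb' : (0 : ℝ) < b := by exact_mod_cast hb1
  refine ⟨2 * b * b * C, by positivity, ?_⟩
  intro W r hW
  rcases W.eq_empty_or_nonempty with rfl | ⟨x0, hx0⟩
  · simp
  set v0 : ℝ := ((ballF G x0 r).card : ℝ) with hv0
  have hv0pos : 0 < v0 := by
    have : 0 < (ballF G x0 r).card := Finset.card_pos.2 ⟨x0, mem_ballF_self G x0 r⟩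
    rw [hv0]
    exact_mod_cast this
  -- inflow bound
  have hin : ∀ a c, G.Adj a c → ∑ x ∈ ballF G a r, fl G r x a c ≤ C * (r * (b * v0)) := by
    apply htr (fl G r) r (r * (b * v0)) (fl_nonneg r) (fun g x y z => fl_aut hG r g x y z)
    intro x
    refine (sum_fl_le hG r x).trans ?_
    apply mul_le_mul_of_nonneg_left _ (Nat.cast_nonneg _)
    rw [hv0]
    exact_mod_cast hb x x0 r
  -- lower bound
  have hlow : W.card * (v0 / (2 * b)) ≤ ∑ x ∈ W, (((ballF G x r).filter fun z => z ∉ W).card : ℝ) := by
    rw [← nsmul_eq_mul, ← Finset.sum_const]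
    apply Finset.sum_le_sum
    intro x _
    have h1 : (ballF G x r).card ≤ ((ballF G x r).filter fun z => z ∉ W).card + W.card := by
      have h2 : ballF G x r ⊆ ((ballF G x r).filter fun z => z ∉ W) ∪ W := by
        intro z hz
        by_cases h : z ∈ W
        · exact Finset.mem_union_right _ h
        · exact Finset.mem_union_left _ (Finset.mem_filter.2 ⟨hz, h⟩)
      exact (Finset.card_le_card h2).trans (Finset.card_union_le _ _)
    have h2 := hW x
    have h3 : (ballF G x r).card ≤ 2 * ((ballF G x r).filter fun z => z ∉ W).card := by omega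
    have h4 : ((ballF G x r).card : ℝ) ≤ 2 * ((ballF G x r).filter fun z => z ∉ W).card := by
      exact_mod_cast h3
    have h5 : v0 ≤ b * (ballF G x r).card := by
      rw [hv0]; exact_mod_cast hb x0 x r
    rw [div_le_iff₀ (by positivity)]
    nlinarith
  -- upper bound
  have hup : ∑ x ∈ W, (((ballF G x r).filter fun z => z ∉ W).card : ℝ) ≤
      (∑ w ∈ W, (((G.neighborFinset w).filter (fun z => z ∉ W)).card : ℝ)) *
        (C * (r * (b * v0))) := by
    calc ∑ x ∈ W, (((ballF G x r).filter fun z => z ∉ W).card : ℝ)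
        ≤ ∑ x ∈ W, ∑ y ∈ ballF G x r, ∑ z ∈ G.neighborFinset y,
            fl G r x y z * (if y ∈ W ∧ z ∉ W then 1 else 0) :=
          Finset.sum_le_sum fun x hx => outside_le hG r hx
      _ = ∑ x ∈ W, ∑ y ∈ (ballF G x r).filter (fun y => y ∈ W),
            ∑ z ∈ (G.neighborFinset y).filter (fun z => z ∉ W), fl G r x y z := by
          apply Finset.sum_congr rfl
          intro x _
          rw [Finset.sum_filter]
          apply Finset.sum_congr rfl
          intro y _
          split_ifs with hy
          · rw [Finset.sum_filter]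
            apply Finset.sum_congr rfl
            intro z _
            by_cases hz : z ∈ W <;> simp [hy, hz]
          · apply Finset.sum_eq_zero
            intro z _
            rw [if_neg (fun h => hy h.1), mul_zero]
      _ = ∑ y ∈ W, ∑ x ∈ W.filter (fun x => x ∈ ballF G y r),
            ∑ z ∈ (G.neighborFinset y).filter (fun z => z ∉ W), fl G r x y z := by
          apply Finset.sum_comm'
          intro x y
          rw [Finset.mem_filter, Finset.mem_filter, mem_ballF_iff hG, mem_ballF_iff hG,
            SimpleGraph.dist_comm (u := y)]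
          tauto
      _ ≤ ∑ y ∈ W, ∑ z ∈ (G.neighborFinset y).filter (fun z => z ∉ W), C * (r * (b * v0)) := by
          apply Finset.sum_le_sum
          intro y _
          rw [Finset.sum_comm]
          apply Finset.sum_le_sum
          intro z hz
          rw [Finset.mem_filter, SimpleGraph.mem_neighborFinset] at hz
          refine le_trans ?_ (hin y z hz.1)
          apply Finset.sum_le_sum_of_subset_of_nonneg
          · intro x hx
            exact (Finset.mem_filter.1 hx).2
          · intro x _ _
            exact fl_nonneg r x y z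
      _ = _ := by
          rw [Finset.sum_mul]
          apply Finset.sum_congr rfl
          intro y _
          rw [Finset.sum_const, nsmul_eq_mul]
  set Bd := ∑ w ∈ W, (((G.neighborFinset w).filter (fun z => z ∉ W)).card : ℝ) with hBd
  have h1 := hlow.trans hup
  have h2 : v0 * (W.card : ℝ) ≤ v0 * (2 * b * b * C * r * Bd) := by
    have h3 : W.card * (v0 / (2 * b)) * (2 * b) ≤ Bd * (C * (r * (b * v0))) * (2 * b) :=
      mul_le_mul_of_nonneg_right h1 (by positivity)
    have h4 : W.card * (v0 / (2 * b)) * (2 * b) = v0 * W.card := by field_simp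
    rw [h4] at h3
    refine h3.trans (le_of_eq ?_)
    ring
  exact le_of_mul_le_mul_left h2 hv0pos

end Vale.Agent.P151.R2.H279
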