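import Vale.Agent.P151.R2.H279.Cells
import Vale.Agent.P151.R2.H279.Bound

/-!
# The drop of the tail between the scales `n` and `n ^ 2`
-/

set_option autoImplicit false
set_option linter.unusedSectionVars false

open Finset SimpleGraph

namespace Vale.Agent.P151.R2.H279

open Vale.Agent.P151

variable {V : Type*} [DecidableEq V] {G : SimpleGraph V} [G.LocallyFinite]

/-- Large sets meet clusters of size `n`, except with probability `η`. -/
def Miss (G : SimpleGraph V) [G.LocallyFinite] (p : ℝ) (n s0 : ℕ) (η : ℝ) : Prop :=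
  ∀ A F : Finset V, s0 ≤ A.card → (∀ a ∈ A, ballF G a n ⊆ F) →
    Ex p (edgesIn G F) (missI n A) ≤ η

open Classical in
lemma card_window {F : Finset V} {n : ℕ} (hn : 1 ≤ n) (S : Finset (Sym2 V)) :
    ((F.filter fun v => n ≤ csz S v ∧ csz S v < n ^ 2).card : ℝ) =
      ∑ v ∈ F, (big n v S - big (n ^ 2) v S) := by
  rw [Finset.card_filter]
  push_cast
  apply Finset.sum_congr rfl
  intro v _
  have hn2 : n ≤ n ^ 2 := by nlinarith
  unfold big
  by_cases h1 : n ≤ csz S v
  · by_cases h2 : n ^ 2 ≤ csz S v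
    · rw [if_neg (by omega), if_pos h1, if_pos h2]; norm_num
    · rw [if_pos ⟨h1, by omega⟩, if_pos h1, if_neg h2]; norm_num
  · rw [if_neg (fun h => h1 h.1), if_neg h1, if_neg (fun h => h1 (hn2.trans h))]; norm_num

open Classical in
/-- **The main estimate.** -/
theorem step [Infinite V] (hG : G.Connected) {R : Finset V}
    (hR : ∀ x : V, ∃ g : G ≃g G, g x ∈ R) (hAm : IsAmenable G) {d : ℕ} (hd1 : 1 ≤ d)
    (hd : ∀ v, G.degree v ≤ d) :
    ∃ C' : ℝ, 0 < C' ∧ ∀ (p q η : ℝ) (n M h B r s0 : ℕ), 0 < p → p ≤ 1 → 1 ≤ q →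
      1 - p ≤ q * p → 0 ≤ η → Miss G p n s0 η → ((1 + d) * M) ^ (h + 2) ≤ n → s0 ≤ h → 2 ≤ B →
      h ≤ B → B ^ (8 * 9 ^ (2 * h)) ≤ M → (∀ x, 2 * n ^ 3 ≤ (ballF G x r).card) →
      ∀ x, phiB G n x p - phiB G (n ^ 2) x p ≤ C' * (1 / n + r * (d * η ^ (h - s0) +
        16 * d * (h + 1) ^ 2 * (2 * q) ^ (2 * h) / (p * (B : ℝ) ^ 3))) := by
  obtain ⟨C, hC, hiso⟩ := isoperimetric hG hR hAm
  obtain ⟨c, hc, D, hcD⟩ := orbit_count hG hR
  refine ⟨(C + 2) / c, by positivity, ?_⟩
  intro p q η n M h B r s0 h0 h1 hq hpq hη hmiss hM hs hB2 hBh hBM hr x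
  have hM1 : 1 ≤ M := le_trans (Nat.one_le_pow _ _ (by omega)) hBM
  have hMn : M ≤ n := by
    refine le_trans ?_ hM
    calc M ≤ (1 + d) * M := Nat.le_mul_of_pos_left _ (by omega)
      _ = ((1 + d) * M) ^ 1 := (pow_one _).symm
      _ ≤ ((1 + d) * M) ^ (h + 2) := Nat.pow_le_pow_right (by nlinarith) (by omega)
  have hn : 1 ≤ n := hM1.trans hMn
  have hn2 : n ≤ n ^ 2 := by nlinarith
  have hnR : (0 : ℝ) < n := by exact_mod_cast hn
  -- the choice of the Foelner set
  obtain ⟨δ, hδ, hδ1, hδ2⟩ : ∃ δ : ℝ, 0 < δ ∧ δ ≤ 1 / 2 ∧ C * r * (2 * d * δ) ≤ 1 / n := by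
    refine ⟨min (1 / 2) (1 / (n * (2 * d * (C * r) + 1))), by positivity, min_le_left _ _, ?_⟩
    have e : min (1 / 2 : ℝ) (1 / (n * (2 * d * (C * r) + 1))) ≤
      1 / (n * (2 * d * (C * r) + 1)) := min_le_right _ _
    calc C * r * (2 * d * min (1 / 2 : ℝ) (1 / (n * (2 * d * (C * r) + 1))))
        ≤ C * r * (2 * d * (1 / (n * (2 * d * (C * r) + 1)))) := by
          apply mul_le_mul_of_nonneg_left _ (by positivity)
          exact mul_le_mul_of_nonneg_left e (by positivity)
      _ = (2 * d * (C * r)) / (n * (2 * d * (C * r) + 1)) := by ring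
      _ ≤ 1 / n := by
          rw [div_le_div_iff₀ (by positivity) hnR]
          nlinarith
  obtain ⟨F, hFne, hF⟩ := foelner_deep hG hR hAm (D + 2 * n ^ 2) hδ
  have hF0 : (0 : ℝ) < F.card := by exact_mod_cast hFne.card_pos
  set Λ := edgesIn G F with hΛ
  set nd := ((F.filter fun v => ¬ ballF G v (D + 2 * n ^ 2) ⊆ F).card : ℝ) with hnd
  have hnd_mono : ∀ ρ, ρ ≤ D + 2 * n ^ 2 →
      ((F.filter fun v => ¬ ballF G v ρ ⊆ F).card : ℝ) ≤ nd := by
    intro ρ hρ
    rw [hnd]
    have : (F.filter fun v => ¬ ballF G v ρ ⊆ F).card ≤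
        (F.filter fun v => ¬ ballF G v (D + 2 * n ^ 2) ⊆ F).card := by
      apply Finset.card_le_card
      intro v hv
      rw [Finset.mem_filter] at hv ⊢
      exact ⟨hv.1, fun h => hv.2 ((ballF_mono G v hρ).trans h)⟩
    exact_mod_cast this
  -- lower bound
  set P := F.filter fun v => (∃ g : G ≃g G, g x = v) ∧ ballF G v (n ^ 2) ⊆ F with hP
  have hcP : c * F.card ≤ P.card := by
    apply hcD
    refine (hnd_mono _ (by omega)).trans (hF.trans ?_)
    exact mul_le_mul_of_nonneg_right hδ1 hF0.le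
  set t := phiB G n x p - phiB G (n ^ 2) x p with ht
  have ht0 : 0 ≤ t := by
    have := phiB_anti hG h0.le h1 hn2 x
    rw [ht]; linarith
  have hlow : c * F.card * t ≤ ∑ v ∈ F, Ex p Λ (fun S => big n v S - big (n ^ 2) v S) := by
    calc c * F.card * t ≤ P.card * t := mul_le_mul_of_nonneg_right hcP ht0
      _ = ∑ v ∈ P, t := by rw [Finset.sum_const, nsmul_eq_mul]
      _ = ∑ v ∈ P, Ex p Λ (fun S => big n v S - big (n ^ 2) v S) := by
          apply Finset.sum_congr rfl
          intro v hv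
          rw [hP, Finset.mem_filter] at hv
          obtain ⟨_, ⟨g, rfl⟩, hb⟩ := hv
          rw [Ex_sub, hΛ, Ex_big_local hG p ((ballF_mono G _ hn2).trans hb), Ex_big_local hG p hb,
            phiB_aut hG g h0.le h1, phiB_aut hG g h0.le h1, ht]
      _ ≤ ∑ v ∈ F, Ex p Λ (fun S => big n v S - big (n ^ 2) v S) := by
          apply Finset.sum_le_sum_of_subset_of_nonneg (Finset.filter_subset _ _)
          intro v _ _
          apply Ex_nonneg h0.le h1
          intro S _
          have := big_anti hn2 v S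
          linarith
  -- upper bound
  have hup : ∑ v ∈ F, Ex p Λ (fun S => big n v S - big (n ^ 2) v S) ≤
      F.card / n + C * r * (d * nd + d * ∑ z ∈ F, Ex p Λ (fun S => if z ∈ Lv Λ M S h then 0 else 1)
        + 2 * ∑ e ∈ Λ, Ex p Λ (fun S => if EvE Λ h B S e then 1 else 0)) := by
    have hpt : ∀ S ⊆ Λ, ∑ v ∈ F, (big n v S - big (n ^ 2) v S) ≤
        F.card / n + C * r * (d * nd + d * ∑ z ∈ F, (if z ∈ Lv Λ M S h then (0 : ℝ) else 1)
        + 2 * ∑ e ∈ Λ, (if EvE Λ h B S e then (1 : ℝ) else 0)) := by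
      intro S _
      rw [← card_window hn]
      refine (cells hG hC hiso hd hn hMn hB2 hBh hBM hr).trans ?_
      apply add_le_add le_rfl
      apply mul_le_mul_of_nonneg_left _ (by positivity)
      apply add_le_add
      · apply add_le_add
        · exact mul_le_mul_of_nonneg_left (hnd_mono 1 (by nlinarith)) (by positivity)
        · apply mul_le_mul_of_nonneg_left _ (by positivity)
          apply le_of_eq
          rw [Finset.card_filter]
          push_cast
          apply Finset.sum_congr rfl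
          intro z _
          by_cases h : z ∈ Lv Λ M S h
          · rw [if_neg (not_not.2 h), if_pos h]
          · rw [if_pos h, if_neg h]
      · apply mul_le_mul_of_nonneg_left _ (by norm_num)
        apply le_of_eq
        rw [Finset.card_filter]
        push_cast
        rfl
    have h2 := Ex_mono h0.le h1 hpt
    rw [Ex_sum] at h2
    refine h2.trans (le_of_eq ?_)
    rw [Ex_add, Ex_const, Ex_const_mul, Ex_add, Ex_add, Ex_const, Ex_const_mul, Ex_const_mul,
      Ex_sum, Ex_sum]
  have hLv : ∑ z ∈ F, Ex p Λ (fun S => if z ∈ Lv Λ M S h then 0 else 1) ≤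
      F.card * η ^ (h - s0) + nd := by
    calc ∑ z ∈ F, Ex p Λ (fun S => if z ∈ Lv Λ M S h then 0 else 1)
        ≤ ∑ z ∈ F, (η ^ (h - s0) + if ¬ ballF G z (D + 2 * n ^ 2) ⊆ F then 1 else 0) := by
          apply Finset.sum_le_sum
          intro z _
          by_cases hz : ballF G z (D + 2 * n ^ 2) ⊆ F
          · rw [if_neg (not_not.2 hz), add_zero]
            exact explore hG h0.le h1 hη hd1 hd (fun A hA hAF => hmiss A F hA hAF) hM1 hM
              ((ballF_mono G z (by omega)).trans hz) hs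
          · rw [if_pos hz]
            have h3 : Ex p Λ (fun S => if z ∈ Lv Λ M S h then 0 else 1) ≤ 1 := by
              apply Ex_le_const h0.le h1
              intro S _
              split_ifs <;> norm_num
            have h4 : 0 ≤ η ^ (h - s0) := pow_nonneg hη _
            linarith
      _ = F.card * η ^ (h - s0) + nd := by
          rw [Finset.sum_add_distrib, Finset.sum_const, nsmul_eq_mul, hnd, Finset.card_filter]
          push_cast
          rfl
  have hEv := Ex_EvE (Λ := Λ) (F := F) h0 h1 hq hpq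
    (fun e he => (mem_edgesIn.1 he).2) hd1
    (fun v => (card_filter_edgesIn_le F v).trans (hd v)) (h := h) (B := B) (by omega)
  have hmain : c * F.card * t ≤ F.card * ((C + 2) * (1 / n + r * (d * η ^ (h - s0) +
        16 * d * (h + 1) ^ 2 * (2 * q) ^ (2 * h) / (p * (B : ℝ) ^ 3)))) := by
    have hB0 : (0 : ℝ) < B := by
      have : 0 < B := by omega
      exact_mod_cast this
    set E := (d * η ^ (h - s0) +
        16 * d * (h + 1) ^ 2 * (2 * q) ^ (2 * h) / (p * (B : ℝ) ^ 3)) with hE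
    have hE0 : 0 ≤ E := by rw [hE]; positivity
    have hCr : 0 ≤ C * r := by positivity
    have hd0 : (0 : ℝ) ≤ d := Nat.cast_nonneg d
    have h5 : d * nd + d * ∑ z ∈ F, Ex p Λ (fun S => if z ∈ Lv Λ M S h then 0 else 1)
        + 2 * ∑ e ∈ Λ, Ex p Λ (fun S => if EvE Λ h B S e then 1 else 0) ≤
        F.card * (2 * d * δ) + F.card * E := by
      have h6 : d * ∑ z ∈ F, Ex p Λ (fun S => if z ∈ Lv Λ M S h then 0 else 1) ≤
          d * (F.card * η ^ (h - s0) + nd) := mul_le_mul_of_nonneg_left hLv hd0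
      have h7 : d * nd ≤ d * (δ * F.card) := mul_le_mul_of_nonneg_left hF hd0
      have h8 : F.card * E = d * (F.card * η ^ (h - s0)) +
          2 * ((h + 1) ^ 2 * (2 * q) ^ (2 * h) * (8 * d * F.card / (p * (B : ℝ) ^ 3))) := by
        rw [hE]; ring
      rw [h8]
      have e1 : d * (F.card * η ^ (h - s0) + nd) = d * (F.card * η ^ (h - s0)) + d * nd := by ring
      have e2 : F.card * (2 * d * δ) = d * (δ * F.card) + d * (δ * F.card) := by ring
      rw [e1] at h6
      rw [e2]
      linarith only [h6, h7, hEv]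
    have h9 : C * r * (d * nd + d * ∑ z ∈ F, Ex p Λ (fun S => if z ∈ Lv Λ M S h then 0 else 1)
        + 2 * ∑ e ∈ Λ, Ex p Λ (fun S => if EvE Λ h B S e then 1 else 0)) ≤
        F.card * (C * r * (2 * d * δ)) + F.card * (C * r * E) := by
      refine (mul_le_mul_of_nonneg_left h5 hCr).trans (le_of_eq ?_)
      ring
    have h10 : F.card * (C * r * (2 * d * δ)) ≤ F.card * (1 / n : ℝ) :=
      mul_le_mul_of_nonneg_left hδ2 hF0.le
    have h11 : c * F.card * t ≤ F.card * (1 / n + 1 / n + C * (r * E)) := by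
      calc c * F.card * t ≤ F.card / n + (F.card * (1 / n : ℝ) + F.card * (C * r * E)) := by
            linarith
        _ = F.card * (1 / n + 1 / n + C * (r * E)) := by ring
    refine h11.trans ?_
    apply mul_le_mul_of_nonneg_left _ hF0.le
    have h12 : (0 : ℝ) < 1 / n := by positivity
    have h13 : 0 ≤ r * E := by positivity
    have h14 : 0 ≤ C * (1 / (n : ℝ)) := mul_nonneg hC.le h12.le
    have e3 : (C + 2) * (1 / n + r * E) = 1 / n + 1 / n + C * (r * E) +
        (C * (1 / (n : ℝ)) + 2 * (r * E)) := by ring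
    rw [e3]
    linarith only [h13, h14]
  have h14 : c * t ≤ (C + 2) * (1 / n + r * (d * η ^ (h - s0) +
        16 * d * (h + 1) ^ 2 * (2 * q) ^ (2 * h) / (p * (B : ℝ) ^ 3))) := by
    have h15 : F.card * (c * t) ≤ F.card * ((C + 2) * (1 / n + r * (d * η ^ (h - s0) +
        16 * d * (h + 1) ^ 2 * (2 * q) ^ (2 * h) / (p * (B : ℝ) ^ 3)))) := by
      refine le_trans (le_of_eq ?_) hmain
      ring
    exact le_of_mul_le_mul_left h15 hF0
  rw [div_mul_eq_mul_div, le_div_iff₀ hc, mul_comm t c]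
  exact h14

end Vale.Agent.P151.R2.H279
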