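import Vale.Agent.P151.R2.H279.Defs

/-!
# Surgery: opening the edges of a chain of clusters
-/

set_option autoImplicit false

open Finset SimpleGraph

namespace Vale.Agent.P151.R2.H279

open Vale.Agent.P151

variable {V : Type*} [DecidableEq V]

/-! ### Cutting an edge -/

lemma cl_erase_eq {W : Finset (Sym2 V)} {g : Sym2 V} {v : V} (h : ∀ w ∈ g, w ∉ cl W v) :
    cl (W.erase g) v = cl W v := by
  apply Finset.Subset.antisymm (cl_mono (Finset.erase_subset _ _) v)
  intro z hz
  rw [mem_cl] at hz ⊢
  refine Cn_closed (S := W) (A := {z | Cn (W.erase g) v z}) ?_ (Cn.refl _ v) hz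
  intro u hu z huz
  have hu' : u ∈ cl W v := mem_cl.2 (Cn.mono (Finset.erase_subset _ _) hu)
  refine Cn.trans hu (Cn_of_mem (Finset.mem_erase.2 ⟨?_, huz⟩))
  rintro rfl
  exact h u (by simp) hu'

lemma cl_of_erase {W : Finset (Sym2 V)} {g : Sym2 V} {v : V}
    (h : ∀ w ∈ g, w ∉ cl (W.erase g) v) : cl W v = cl (W.erase g) v := by
  apply Finset.Subset.antisymm _ (cl_mono (Finset.erase_subset _ _) v)
  intro z hz
  rw [mem_cl] at hz ⊢
  refine Cn_closed (S := W) (A := {z | Cn (W.erase g) v z}) ?_ (Cn.refl _ v) hz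
  intro u hu z huz
  refine Cn.trans hu (Cn_of_mem (Finset.mem_erase.2 ⟨?_, huz⟩))
  rintro rfl
  exact h u (by simp) (mem_cl.2 hu)

/-- Removing an edge which changes the cluster splits it in two. -/
lemma cut_decomp {W : Finset (Sym2 V)} {g : Sym2 V} {x : V} (hg : g ∈ W)
    (h : csz (W.erase g) x < csz W x) :
    ∃ u v, g = s(u, v) ∧ u ∈ cl (W.erase g) x ∧ v ∉ cl (W.erase g) x ∧
      csz W x = csz (W.erase g) x + csz (W.erase g) v := by
  have key : ∀ u v, g = s(u, v) → u ∈ cl (W.erase g) x → v ∉ cl (W.erase g) x →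
      csz W x = csz (W.erase g) x + csz (W.erase g) v := by
    intro u v hguv hu hv
    have hW : W = insert s(u, v) (W.erase g) := by rw [← hguv, Finset.insert_erase hg]
    have hxu : Cn (W.erase g) x u := mem_cl.1 hu
    have h1 : csz W x = csz W u := csz_eq (hxu.mono (Finset.erase_subset _ _))
    have h2 : cl W u = cl (W.erase g) u ∪ cl (W.erase g) v := by
      conv_lhs => rw [hW]
      exact cl_insert_left
    rw [h1]
    unfold csz
    rw [h2, Finset.card_union_of_disjoint]
    · rw [cl_eq hxu]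
    · apply cl_disjoint
      intro huv
      exact hv (mem_cl.2 (hxu.trans huv))
  induction g with
  | _ a b =>
    by_cases ha : a ∈ cl (W.erase s(a, b)) x
    · by_cases hb : b ∈ cl (W.erase s(a, b)) x
      · exfalso
        have hsub : cl W x ⊆ cl (W.erase s(a, b)) x := by
          intro z hz
          rw [mem_cl] at hz ha hb ⊢
          refine Cn_closed (S := W) (A := {z | Cn (W.erase s(a, b)) x z}) ?_ (Cn.refl _ x) hz
          intro u hu z huz
          by_cases he : s(u, z) = s(a, b)
          · rw [Sym2.eq_iff] at he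
            rcases he with ⟨rfl, rfl⟩ | ⟨rfl, rfl⟩
            · exact hb
            · exact ha
          · exact Cn.trans hu (Cn_of_mem (Finset.mem_erase.2 ⟨he, huz⟩))
        have := Finset.card_le_card hsub
        unfold csz at h
        omega
      · exact ⟨a, b, rfl, ha, hb, key a b rfl ha hb⟩
    · by_cases hb : b ∈ cl (W.erase s(a, b)) x
      · exact ⟨b, a, Sym2.eq_swap, hb, ha, key b a Sym2.eq_swap hb ha⟩
      · exfalso
        have h1 : cl W x = cl (W.erase s(a, b)) x := by
          apply cl_of_erase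
          intro w hw
          rw [Sym2.mem_iff] at hw
          rcases hw with rfl | rfl
          · exact ha
          · exact hb
        unfold csz at h
        rw [h1] at h
        exact lt_irrefl _ h

/-- A cut edge is determined by the size of the small side. -/
lemma unique_cut {W : Finset (Sym2 V)} {x : V} {g g' : Sym2 V} (hg : g ∈ W) (hg' : g' ∈ W)
    (h : csz (W.erase g) x = csz (W.erase g') x) (h2 : 2 * csz (W.erase g) x < csz W x) :
    g = g' := by
  by_contra hne
  obtain ⟨u, v, hguv, hu, hv, hsz⟩ := cut_decomp hg (show csz (W.erase g) x < csz W x by omega)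
  obtain ⟨u', v', hguv', hu', hv', hsz'⟩ := cut_decomp hg'
    (show csz (W.erase g') x < csz W x by omega)
  -- one half of the argument
  have half : ∀ {g g' : Sym2 V} {u' v' : V}, g ∈ W → g' ∈ W → g ≠ g' → g' = s(u', v') →
      u' ∈ cl (W.erase g') x → v' ∉ cl (W.erase g') x →
      csz (W.erase g) x = csz (W.erase g') x → u' ∈ cl (W.erase g) x := by
    intro g g' u' v' hg hg' hne hguv' hu' hv' h
    by_contra hcon
    have hnot : ∀ w ∈ g', w ∉ cl (W.erase g) x := by
      intro w hw
      rw [hguv', Sym2.mem_iff] at hw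
      rcases hw with rfl | rfl
      · exact hcon
      · intro hw2
        apply hcon
        rw [mem_cl] at hw2 ⊢
        exact hw2.trans (Cn_of_mem (Finset.mem_erase.2 ⟨fun he => hne (by
          rw [hguv', ← he, Sym2.eq_swap]), by rw [Sym2.eq_swap, ← hguv']; exact hg'⟩))
    have h1 : cl (W.erase g) x ⊆ cl (W.erase g') x := by
      rw [← cl_erase_eq hnot]
      apply cl_mono
      intro e he
      rw [Finset.mem_erase, Finset.mem_erase] at he
      exact Finset.mem_erase.2 ⟨he.1, he.2.2⟩
    have h2 : cl (W.erase g) x = cl (W.erase g') x :=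
      Finset.eq_of_subset_of_card_le h1 (le_of_eq h.symm)
    rw [h2] at hcon
    exact hcon hu'
  have hu'A : u' ∈ cl (W.erase g) x := half hg hg' hne hguv' hu' hv' h
  have huA' : u ∈ cl (W.erase g') x := half hg' hg (Ne.symm hne) hguv hu hv h.symm
  -- both endpoints of `g'` are in `A`, both endpoints of `g` are in `A'`
  have hv'A : v' ∈ cl (W.erase g) x := by
    rw [mem_cl] at hu'A ⊢
    exact hu'A.trans (Cn_of_mem (Finset.mem_erase.2 ⟨fun he => hne (by rw [hguv', he]), by
      rw [← hguv']; exact hg'⟩))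
  have hvA' : v ∈ cl (W.erase g') x := by
    rw [mem_cl] at huA' ⊢
    exact huA'.trans (Cn_of_mem (Finset.mem_erase.2 ⟨fun he => hne (by rw [hguv, ← he]), by
      rw [← hguv]; exact hg⟩))
  have hC : cl (W.erase g) v ⊆ cl (W.erase g') x := by
    have hnot : ∀ w ∈ g', w ∉ cl (W.erase g) v := by
      have hd : Disjoint (cl (W.erase g) x) (cl (W.erase g) v) :=
        cl_disjoint fun hc => hv (mem_cl.2 hc)
      intro w hw
      rw [hguv', Sym2.mem_iff] at hw
      rcases hw with rfl | rfl
      · exact Finset.disjoint_left.1 hd hu'A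
      · exact Finset.disjoint_left.1 hd hv'A
    rw [← cl_erase_eq hnot, cl_eq (mem_cl.1 hvA')]
    apply cl_mono
    intro e he
    rw [Finset.mem_erase, Finset.mem_erase] at he
    exact Finset.mem_erase.2 ⟨he.1, he.2.2⟩
  have := Finset.card_le_card hC
  unfold csz at *
  omega

/-! ### Arms -/

/-- A chain of clusters of `S` starting at the cluster of `x`, joined by edges of `Λ`: `l` is the
list of the sizes of the clusters before the last one, `fs` the set of the joining edges, `U` the
union of the clusters, `r` the size of the last one. -/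
inductive Arm (Λ S : Finset (Sym2 V)) : V → List ℕ → Finset (Sym2 V) → Finset V → ℕ → Prop
  | nil (x : V) : Arm Λ S x [] ∅ (cl S x) (csz S x)
  | cons {x u w : V} {l : List ℕ} {fs : Finset (Sym2 V)} {U : Finset V} {r : ℕ}
      (hu : u ∈ cl S x) (hΛ : s(u, w) ∈ Λ) (hd : Disjoint (cl S x) U)
      (h : Arm Λ S w l fs U r) :
      Arm Λ S x (csz S x :: l) (insert s(u, w) fs) (cl S x ∪ U) r

/-- The set of partial sums. -/
def TT : List ℕ → Finset ℕ
  | [] => ∅
  | s :: l => insert s ((TT l).image (fun t => s + t))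

lemma TT_le {l : List ℕ} {t : ℕ} (ht : t ∈ TT l) : t ≤ l.sum := by
  induction l generalizing t with
  | nil => simp [TT] at ht
  | cons s l ih =>
    simp only [TT, Finset.mem_insert, Finset.mem_image] at ht
    rw [List.sum_cons]
    rcases ht with rfl | ⟨t', ht', rfl⟩
    · omega
    · have := ih ht'
      omega

namespace Arm

variable {Λ S : Finset (Sym2 V)} {x : V} {l : List ℕ} {fs : Finset (Sym2 V)} {U : Finset V} {r : ℕ}

lemma self_mem (h : Arm Λ S x l fs U r) : x ∈ U := by
  cases h with
  | nil => exact self_mem_cl S x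
  | cons => exact Finset.mem_union_left _ (self_mem_cl S x)

lemma cl_subset (h : Arm Λ S x l fs U r) {v : V} (hv : v ∈ U) : cl S v ⊆ U := by
  induction h generalizing v with
  | nil x => rw [← cl_eq (mem_cl.1 hv)]
  | cons hu hΛ hd h ih =>
    rw [Finset.mem_union] at hv
    rcases hv with hv | hv
    · rw [← cl_eq (mem_cl.1 hv)]; exact Finset.subset_union_left
    · exact (ih hv).trans Finset.subset_union_right

lemma edges_mem (h : Arm Λ S x l fs U r) {g : Sym2 V} (hg : g ∈ fs) :
    g ∈ Λ ∧ g ∉ S ∧ ∀ v ∈ g, v ∈ U := by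
  induction h with
  | nil x => simp at hg
  | @cons x u w l fs U r hu hΛ hd h ih =>
    rw [Finset.mem_insert] at hg
    rcases hg with rfl | hg
    · refine ⟨hΛ, ?_, ?_⟩
      · intro hS
        have h1 : w ∈ cl S x := mem_cl.2 ((mem_cl.1 hu).trans (Cn_of_mem hS))
        exact Finset.disjoint_left.1 hd h1 h.self_mem
      · intro v hv
        rw [Sym2.mem_iff] at hv
        rcases hv with rfl | rfl
        · exact Finset.mem_union_left _ hu
        · exact Finset.mem_union_right _ h.self_mem
    · obtain ⟨h1, h2, h3⟩ := ih hg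
      exact ⟨h1, h2, fun v hv => Finset.mem_union_right _ (h3 v hv)⟩

lemma card_edges (h : Arm Λ S x l fs U r) : fs.card = l.length := by
  induction h with
  | nil x => simp
  | @cons x u w l fs U r hu hΛ hd h ih =>
    rw [Finset.card_insert_of_notMem, ih, List.length_cons]
    intro hmem
    have := (h.edges_mem hmem).2.2 u (by simp)
    exact Finset.disjoint_left.1 hd hu this

lemma card_eq (h : Arm Λ S x l fs U r) : U.card = l.sum + r := by
  induction h with
  | nil x => simp [csz]
  | @cons x u w l fs U r hu hΛ hd h ih =>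
    rw [Finset.card_union_of_disjoint hd, ih, List.sum_cons]
    unfold csz
    omega

lemma one_le (h : Arm Λ S x l fs U r) {s : ℕ} (hs : s ∈ l) : 1 ≤ s := by
  induction h with
  | nil x => simp at hs
  | @cons x u w l fs U r hu hΛ hd h ih =>
    rw [List.mem_cons] at hs
    rcases hs with rfl | hs
    · exact csz_pos S x
    · exact ih hs

/-- A cluster is not affected by edges which do not touch it. -/
lemma cl_union_eq {S E : Finset (Sym2 V)} {v : V} (hE : ∀ g ∈ E, ∀ w ∈ g, w ∉ cl S v) :
    cl (S ∪ E) v = cl S v := by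
  apply Finset.Subset.antisymm _ (cl_mono Finset.subset_union_left v)
  intro z hz
  rw [mem_cl] at hz ⊢
  refine Cn_closed (S := S ∪ E) (A := {z | Cn S v z}) ?_ (Cn.refl _ v) hz
  intro u hu z huz
  rw [Finset.mem_union] at huz
  rcases huz with huz | huz
  · exact Cn.trans hu (Cn_of_mem huz)
  · exact absurd (mem_cl.2 hu) (hE _ huz u (by simp))

/-- After opening the edges of the arm (and edges which do not touch it), the cluster of `x` is
the union of the arm. -/
lemma cl_open (h : Arm Λ S x l fs U r) {E : Finset (Sym2 V)} (hE : ∀ g ∈ E, ∀ w ∈ g, w ∉ U) :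
    cl (S ∪ (fs ∪ E)) x = U := by
  induction h with
  | nil x =>
    rw [Finset.empty_union]
    exact cl_union_eq hE
  | @cons x u w l fs U r hu hΛ hd h ih =>
    have hE' : ∀ g ∈ E, ∀ w ∈ g, w ∉ U := fun g hg w hw hU =>
      hE g hg w hw (Finset.mem_union_right _ hU)
    have h1 := ih hE'
    have hfsE : ∀ g ∈ fs ∪ E, ∀ w ∈ g, w ∉ cl S x := by
      intro g hg w hw hc
      rw [Finset.mem_union] at hg
      rcases hg with hg | hg
      · exact Finset.disjoint_left.1 hd hc ((h.edges_mem hg).2.2 w hw)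
      · exact hE g hg w hw (Finset.mem_union_left _ hc)
    have h2 : cl (S ∪ (fs ∪ E)) x = cl S x := cl_union_eq hfsE
    have h3 : S ∪ (insert s(u, w) fs ∪ E) = insert s(u, w) (S ∪ (fs ∪ E)) := by
      ext g; simp only [Finset.mem_union, Finset.mem_insert]; tauto
    have hxu : Cn (S ∪ (fs ∪ E)) x u := (mem_cl.1 hu).mono Finset.subset_union_left
    rw [h3, cl_eq (hxu.mono (Finset.subset_insert _ _)), cl_insert_left, ← cl_eq hxu, h2, h1]

lemma csz_open (h : Arm Λ S x l fs U r) {E : Finset (Sym2 V)} (hE : ∀ g ∈ E, ∀ w ∈ g, w ∉ U) :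
    csz (S ∪ (fs ∪ E)) x = U.card := by
  unfold csz; rw [h.cl_open hE]

/-- The sizes of the sides of the edges of the arm are the partial sums. -/
lemma csz_erase (h : Arm Λ S x l fs U r) {E : Finset (Sym2 V)} (hE : ∀ g ∈ E, ∀ w ∈ g, w ∉ U) :
    (∀ g ∈ fs, csz ((S ∪ (fs ∪ E)).erase g) x ∈ TT l) ∧
    ∀ t ∈ TT l, ∃ g ∈ fs, csz ((S ∪ (fs ∪ E)).erase g) x = t := by
  induction h with
  | nil x => simp [TT]
  | @cons x u w l fs U r hu hΛ hd h ih =>
    have hE' : ∀ g ∈ E, ∀ w ∈ g, w ∉ U := fun g hg w hw hU =>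
      hE g hg w hw (Finset.mem_union_right _ hU)
    obtain ⟨ih1, ih2⟩ := ih hE'
    have hfsE : ∀ g ∈ fs ∪ E, ∀ w ∈ g, w ∉ cl S x := by
      intro g hg w hw hc
      rw [Finset.mem_union] at hg
      rcases hg with hg | hg
      · exact Finset.disjoint_left.1 hd hc ((h.edges_mem hg).2.2 w hw)
      · exact hE g hg w hw (Finset.mem_union_left _ hc)
    have h2 : cl (S ∪ (fs ∪ E)) x = cl S x := cl_union_eq hfsE
    have h3 : S ∪ (insert s(u, w) fs ∪ E) = insert s(u, w) (S ∪ (fs ∪ E)) := by
      ext g; simp only [Finset.mem_union, Finset.mem_insert]; tauto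
    have hf : s(u, w) ∉ S ∪ (fs ∪ E) := by
      intro hmem
      rw [Finset.mem_union] at hmem
      rcases hmem with hmem | hmem
      · exact (((h.cons hu hΛ hd).edges_mem (Finset.mem_insert_self _ _)).2.1) hmem
      · exact hfsE _ hmem u (by simp) hu
    have hhead : csz ((S ∪ (insert s(u, w) fs ∪ E)).erase s(u, w)) x = csz S x := by
      rw [h3, Finset.erase_insert hf]
      unfold csz
      rw [h2]
    have htail : ∀ g ∈ fs, csz ((S ∪ (insert s(u, w) fs ∪ E)).erase g) x =
        csz S x + csz ((S ∪ (fs ∪ E)).erase g) w := by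
      intro g hg
      have hgu : g ≠ s(u, w) := by
        rintro rfl
        exact hfsE _ (Finset.mem_union_left _ hg) u (by simp) hu
      rw [h3, Finset.erase_insert_of_ne (Ne.symm hgu)]
      have hgx : cl ((S ∪ (fs ∪ E)).erase g) x = cl S x := by
        rw [cl_erase_eq, h2]
        intro v hv
        rw [h2]
        exact hfsE g (Finset.mem_union_left _ hg) v hv
      have hxu : Cn ((S ∪ (fs ∪ E)).erase g) x u := by
        rw [← mem_cl, hgx]; exact hu
      have hsub : cl ((S ∪ (fs ∪ E)).erase g) w ⊆ U := by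
        refine (cl_mono (Finset.erase_subset _ _) w).trans ?_
        rw [h.cl_open hE']
      unfold csz
      rw [cl_eq (hxu.mono (Finset.subset_insert _ _)), cl_insert_left, ← cl_eq hxu, hgx,
        Finset.card_union_of_disjoint (Finset.disjoint_of_subset_right hsub hd)]
    constructor
    · intro g hg
      rw [Finset.mem_insert] at hg
      rcases hg with rfl | hg
      · rw [hhead]
        exact Finset.mem_insert_self _ _
      · rw [htail g hg]
        exact Finset.mem_insert_of_mem (Finset.mem_image.2 ⟨_, ih1 g hg, rfl⟩)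
    · intro t ht
      simp only [TT, Finset.mem_insert, Finset.mem_image] at ht
      rcases ht with rfl | ⟨t', ht', rfl⟩
      · exact ⟨_, Finset.mem_insert_self _ _, hhead⟩
      · obtain ⟨g, hg, hgt⟩ := ih2 t' ht'
        exact ⟨g, Finset.mem_insert_of_mem hg, by rw [htail g hg, hgt]⟩

/-- Cutting an arm at its first cluster of size at least `N`. -/
lemma truncate (h : Arm Λ S x l fs U r) {N : ℕ} (hN : N ≤ r) :
    ∃ (l' : List ℕ) (fs' : Finset (Sym2 V)) (U' : Finset V) (r' : ℕ), Arm Λ S x l' fs' U' r' ∧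
      N ≤ r' ∧ U' ⊆ U ∧ l'.length ≤ l.length ∧ l'.prod ≤ (l.filter (fun s => s < N)).prod := by
  induction h with
  | nil x =>
    exact ⟨[], ∅, _, _, Arm.nil x, hN, Finset.Subset.refl _, le_rfl, by simp⟩
  | @cons x u w l fs U r hu hΛ hd h ih =>
    have hpos : 1 ≤ (List.filter (fun s => decide (s < N)) (csz S x :: l)).prod := by
      apply Nat.one_le_iff_ne_zero.2
      intro h0
      rw [List.prod_eq_zero_iff, List.mem_filter] at h0
      have := (h.cons hu hΛ hd).one_le h0.1
      omega
    by_cases hx : N ≤ csz S x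
    · refine ⟨[], ∅, _, _, Arm.nil x, hx, Finset.subset_union_left, by simp, ?_⟩
      simpa using hpos
    · obtain ⟨l', fs', U', r', h1, h2, h3, h4, h5⟩ := ih hN
      refine ⟨csz S x :: l', insert s(u, w) fs', cl S x ∪ U', r',
        h1.cons hu hΛ (Finset.disjoint_of_subset_right h3 hd), h2,
        Finset.union_subset_union_right h3, by simpa using h4, ?_⟩
      rw [List.filter_cons_of_pos (by simpa using not_le.1 hx), List.prod_cons, List.prod_cons]
      exact Nat.mul_le_mul_left _ h5

end Arm

/-! ### The surgery inequality -/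

section Ex
variable {ι : Type*} [DecidableEq ι]

open Classical in
/-- Opening `k` elements in a reconstructible way. -/
lemma Ex_surgery {p q : ℝ} (h0 : 0 < p) (h1 : p ≤ 1) (hq : 0 ≤ q) (hpq : 1 - p ≤ q * p)
    {Λ : Finset ι} {Q Q' : Finset ι → Prop} {k : ℕ} (Ψ : Finset ι → Finset ι)
    (h : ∀ S ⊆ Λ, Q S → ∃ S' ⊆ Λ, S'.card = S.card + k ∧ Q' S' ∧ Ψ S' = S) :
    Ex p Λ (fun S => if Q S then 1 else 0) ≤
      q ^ k * Ex p Λ (fun S => if Q' S then 1 else 0) := by
  have hp1 : 0 ≤ 1 - p := by linarith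
  unfold Ex
  have e1 : ∑ S ∈ Λ.powerset, p ^ S.card * (1 - p) ^ (Λ.card - S.card) * (if Q S then (1:ℝ) else 0) =
      ∑ S ∈ Λ.powerset.filter Q, p ^ S.card * (1 - p) ^ (Λ.card - S.card) := by
    rw [Finset.sum_filter]
    apply Finset.sum_congr rfl
    intro S _
    split_ifs <;> simp
  have e2 : ∑ S ∈ Λ.powerset, p ^ S.card * (1 - p) ^ (Λ.card - S.card) * (if Q' S then (1:ℝ) else 0) =
      ∑ S ∈ Λ.powerset.filter Q', p ^ S.card * (1 - p) ^ (Λ.card - S.card) := by
    rw [Finset.sum_filter]
    apply Finset.sum_congr rfl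
    intro S _
    split_ifs <;> simp
  rw [e1, e2, Finset.mul_sum]
  have h' : ∀ S : Finset ι, ∃ S' : Finset ι, S ∈ Λ.powerset.filter Q →
      S' ⊆ Λ ∧ S'.card = S.card + k ∧ Q' S' ∧ Ψ S' = S := by
    intro S
    by_cases hS : S ∈ Λ.powerset.filter Q
    · rw [Finset.mem_filter, Finset.mem_powerset] at hS
      obtain ⟨S', a, b, c, e⟩ := h S hS.1 hS.2
      exact ⟨S', fun _ => ⟨a, b, c, e⟩⟩
    · exact ⟨∅, fun hS' => absurd hS' hS⟩
  choose Φ hΦ using h'
  have hinj : Set.InjOn Φ (Λ.powerset.filter Q : Finset (Finset ι)) := by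
    intro S hS T hT hST
    have h1 := (hΦ S hS).2.2.2
    have h2 := (hΦ T hT).2.2.2
    rw [← h1, hST, h2]
  calc ∑ S ∈ Λ.powerset.filter Q, p ^ S.card * (1 - p) ^ (Λ.card - S.card)
      ≤ ∑ S ∈ Λ.powerset.filter Q, q ^ k * (p ^ (Φ S).card * (1 - p) ^ (Λ.card - (Φ S).card)) := by
        apply Finset.sum_le_sum
        intro S hS
        obtain ⟨a, b, _, _⟩ := hΦ S hS
        have hle := Finset.card_le_card a
        rw [b] at hle ⊢
        have e3 : Λ.card - S.card = (Λ.card - (S.card + k)) + k := by omega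
        rw [e3, pow_add, pow_add]
        have e4 : (1 - p) ^ k ≤ (q * p) ^ k := pow_le_pow_left₀ hp1 hpq k
        calc p ^ S.card * ((1 - p) ^ (Λ.card - (S.card + k)) * (1 - p) ^ k)
            ≤ p ^ S.card * ((1 - p) ^ (Λ.card - (S.card + k)) * (q * p) ^ k) := by gcongr
          _ = q ^ k * (p ^ S.card * p ^ k * (1 - p) ^ (Λ.card - (S.card + k))) := by
              rw [mul_pow]; ring
    _ = ∑ S' ∈ (Λ.powerset.filter Q).image Φ,
          q ^ k * (p ^ S'.card * (1 - p) ^ (Λ.card - S'.card)) := by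
        rw [Finset.sum_image hinj]
    _ ≤ ∑ S' ∈ Λ.powerset.filter Q', q ^ k * (p ^ S'.card * (1 - p) ^ (Λ.card - S'.card)) := by
        apply Finset.sum_le_sum_of_subset_of_nonneg
        · intro S' hS'
          rw [Finset.mem_image] at hS'
          obtain ⟨S, hS, rfl⟩ := hS'
          obtain ⟨a, _, c, _⟩ := hΦ S hS
          exact Finset.mem_filter.2 ⟨Finset.mem_powerset.2 a, c⟩
        · intro S' _ _
          positivity

end Ex

end Vale.Agent.P151.R2.H279
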